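import Vale.Agent.P313.H644.Tree

/-!
Splitting a backward tree at an intermediate time.
-/

namespace Vale.Agent.P313.H644.Mv

open Finset

variable {α : Type*} (M : Mv α)

/-- The moves from time `t0` on. -/
def shift (t0 : ℕ) : Mv α :=
  ⟨fun t => M.up (t0 + t), fun t => M.idx (t0 + t), fun t => M.nc (t0 + t), fun t => M.dn (t0 + t)⟩

theorem Law.shift {P : ℕ → α → Prop} {D t0 : ℕ} (L : M.Law P (t0 + D)) :
    (M.shift t0).Law (fun t => P (t0 + t)) D where
  upP t ht y hy := L.upP (t0 + t) (by omega) y hy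
  dnP t ht y hy j hj := L.dnP (t0 + t) (by omega) y hy j hj
  updn t ht y hy j hj := L.updn (t0 + t) (by omega) y hy j hj
  idxdn t ht y hy j hj := L.idxdn (t0 + t) (by omega) y hy j hj

theorem sm_congr {Z Z' : ℕ → α → Prop} [∀ t y, Decidable (Z t y)] [∀ t y, Decidable (Z' t y)]
    {g g' : α → ℕ} {P : ℕ → α → Prop} {D : ℕ} (L : M.Law P D)
    (hZ : ∀ t, 1 ≤ t → t ≤ D → ∀ y, P t y → (Z t y ↔ Z' t y)) (hg : ∀ y, P 0 y → g y = g' y) :
    ∀ t ≤ D, ∀ y, P t y → M.sm Z g t y = M.sm Z' g' t y := by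
  intro t
  induction t with
  | zero => intro _ y hy; exact hg y hy
  | succ t ih =>
    intro ht y hy
    simp only [sm]
    have : (Z (t + 1) y ↔ Z' (t + 1) y) := hZ _ (by omega) ht y hy
    by_cases h : Z (t + 1) y
    · rw [if_pos h, if_pos (this.1 h)]
    · rw [if_neg h, if_neg (fun h' => h (this.2 h'))]
      exact sum_congr rfl fun j hj =>
        ih (by omega) _ (L.dnP t (by omega) y hy j (mem_range.1 hj))

theorem sl_congr {g g' : α → ℕ} {P : ℕ → α → Prop} {D : ℕ} (L : M.Law P D)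
    (hg : ∀ y, P 0 y → g y = g' y) : ∀ t ≤ D, ∀ y, P t y → M.sl g t y = M.sl g' t y := by
  intro t
  induction t with
  | zero => intro _ y hy; exact hg y hy
  | succ t ih =>
    intro ht y hy
    simp only [sl]
    exact sum_congr rfl fun j hj => ih (by omega) _ (L.dnP t (by omega) y hy j (mem_range.1 hj))

theorem sl_eq_sm (g : α → ℕ) : ∀ t y, M.sl g t y = M.sm (fun _ _ => False) g t y := by
  intro t
  induction t with
  | zero => intro y; rfl
  | succ t ih => intro y; simp only [sl, sm, if_false, ih]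

/-- The sum over the leaves is a sum over the nodes at time `t0`. -/
theorem sm_add (Z : ℕ → α → Prop) [∀ t y, Decidable (Z t y)] (g : α → ℕ) (t0 : ℕ) :
    ∀ k y, M.sm Z g (t0 + k) y =
      (M.shift t0).sm (fun t => Z (t0 + t)) (fun u => M.sm Z g t0 u) k y := by
  intro k
  induction k with
  | zero => intro y; rfl
  | succ k ih =>
    intro y
    rw [← Nat.add_assoc]
    simp only [sm, shift, Nat.add_assoc]
    congr 1
    exact sum_congr rfl fun j _ => ih _

theorem sl_add (g : α → ℕ) (t0 : ℕ) :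
    ∀ k y, M.sl g (t0 + k) y = (M.shift t0).sl (fun u => M.sl g t0 u) k y := by
  intro k
  induction k with
  | zero => intro y; rfl
  | succ k ih =>
    intro y
    rw [← Nat.add_assoc]
    simp only [sl, shift]
    exact sum_congr rfl fun j _ => ih _

theorem wn_add (t0 : ℕ) : ∀ k y, M.wn (t0 + k) y =
    (M.shift t0).wn k y + (M.shift t0).sl (fun u => M.W t0 u) k y := by
  intro k
  induction k with
  | zero => intro y; simp only [Nat.add_zero, wn_eq M, wn, sl]
  | succ k ih =>
    intro y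
    rw [← Nat.add_assoc]
    simp only [wn, sl, Nat.add_assoc]
    rw [show (M.shift t0).nc k y = M.nc (t0 + k) y from rfl,
      show (M.shift t0).dn k y = M.dn (t0 + k) y from rfl, ← sum_add_distrib]
    congr 1
    exact sum_congr rfl fun j _ => ih _

/-- The recursion for the weight: `W_{a+1}(y) = W_a(y) + sum of the W_a(u)`. -/
theorem W_add (t0 k : ℕ) (y : α) : M.W (t0 + k) y =
    (M.shift t0).W k y + (M.shift t0).sl (fun u => M.W t0 u) k y := by
  have h1 := M.wn_add t0 k y
  rw [wn_eq M, wn_eq (M.shift t0)] at h1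
  omega

theorem sm_le_W {Z : ℕ → α → Prop} [∀ t y, Decidable (Z t y)] {g : α → ℕ} {P : ℕ → α → Prop}
    {D : ℕ} (L : M.Law P D) {G : ℕ} (hG : ∀ y, P 0 y → g y ≤ G) :
    ∀ t ≤ D, ∀ y, P t y → M.sm Z g t y ≤ G * M.wn t y := by
  intro t
  induction t with
  | zero => intro _ y hy; simp only [sm, wn, Nat.mul_one]; exact hG y hy
  | succ t ih =>
    intro ht y hy
    simp only [sm, wn]
    split_ifs
    · omega
    · rw [Nat.mul_add, mul_sum]
      exact (sum_le_sum fun j hj => ih (by omega) _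
        (L.dnP t (by omega) y hy j (mem_range.1 hj))).trans (Nat.le_add_left _ _)

theorem sm_le_W' {Z : ℕ → α → Prop} [∀ t y, Decidable (Z t y)] {g : α → ℕ} {P : ℕ → α → Prop}
    {D : ℕ} (L : M.Law P D) {G : ℕ} (hG : ∀ y, P 0 y → g y ≤ G) (hD : 1 ≤ D) {y : α} (hy : P D y) :
    M.sm Z g D y ≤ G * M.W D y := by
  obtain ⟨t, rfl⟩ : ∃ t, D = t + 1 := ⟨D - 1, by omega⟩
  simp only [sm, W]
  split_ifs
  · omega
  · rw [mul_sum]
    exact sum_le_sum fun j hj => M.sm_le_W L hG t (by omega) _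
        (L.dnP t (by omega) y hy j (mem_range.1 hj))

end Vale.Agent.P313.H644.Mv
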