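import Vale.Agent.P313.H296.Fin2
import Vale.Agent.P313.H644.Fin

namespace Vale.Agent.P313.Z

open Finset BP H126 H427 H644

variable {M : RTM} {c : ℕ}

/-- The successor function of the program. -/
noncomputable def csP (M : RTM) (c : ℕ) (I : TS.Inp) (v b : ℕ) : ℕ :=
  M.csN I.word (Sel.sW M c I.word) (Sel.sT c I.word) v b

theorem lf_csP : TS.LF (fun x a => csP M c x (a 0) (a 1) : TS.Fn 2) :=
  CT.lf_cs_ts M c (TS.LF.proj 0) (TS.LF.proj 1)

/-- The program. -/
noncomputable def progX (M : RTM) (c : ℕ) : CT.CP :=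
  CT.sel H899.kdF (H899.psL tours (csP M c))

theorem progX_ok : (progX M c).Ok :=
  CT.sel_ok H899.lf_kdF (H899.psL_ok tours_ok lf_csP)

theorem csP_eq (x : List Bool) (sd : ℕ) (V : CT.Orc) (t : Tp) (v : ℕ) :
    csP M c (CT.inp (envx M c x sd) V t) v 0 = (CX M c x sd).cs v false ∧
      csP M c (CT.inp (envx M c x sd) V t) v 1 = (CX M c x sd).cs v true := ⟨rfl, rfl⟩

theorem good_ok (hM : M.Bounded (fun n => (n + 2) ^ c) (fun n => c * Nat.log 2 (n + 2)))
    (x : List Bool) (sd : ℕ)
    (h : GoodSd (parx M c x) (theSem (parx M c x)) (theTSem (parx M c x)) (csx M c x) sd) :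
    CT.Restores (envx M c x sd) (progX M c) (topx M c x) ∧
      CT.val (envx M c x sd) (progX M c) (topx M c x) (q0x M c x) (fun _ => 0) =
        (data (parx M c x).toPar (theSem (parx M c x)) (csx M c x) (oSd (parx M c x) sd)
          (parx M c x).S).A (stx M c x) 0 := by
  have hy := hypX hM x h
  have hT := toursX hM x h
  have hcs : ∀ (V : CT.Orc) (t : Tp) (v : ℕ), v + 1 < (CX M c x sd).p.n →
      csP M c (CT.inp (envx M c x sd) V t) v 0 = (CX M c x sd).cs v false ∧
      csP M c (CT.inp (envx M c x sd) V t) v 1 = (CX M c x sd).cs v true :=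
    fun V t v _ => csP_eq x sd V t v
  have h1 := H899.master_psi (C := CX M c x sd) hy (num2X x sd) (num3X hM x sd) hT hcs
  have hn := (numOK (M := M) (c := c) x).n2
  have hst : stx M c x < (parx M c x).n :=
    (CT.chain_ok hM x (n_ge (M := M) (c := c) x)).start_lt.trans' (Nat.lt_succ_self _)
  have h2 := H899.val_top (C := CX M c x sd) hy (num2X x sd) (num3X hM x sd) hT hcs
    (v := stx M c x) (x := 0) (t := fun _ => 0) hst (by change 0 < (parx M c x).n; omega)
    ⟨fun j _ => (q_prime x).pos, fun _ _ => rfl⟩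
  exact ⟨h1.1, h2⟩

end Vale.Agent.P313.Z
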