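import Vale.Agent.P313.H644.GoalL
import Vale.Agent.P313.CT.MixC
import Vale.Agent.P313.H899.Psi

/-!
The goals of all tours with the programs for mixing.
-/

namespace Vale.Agent.P313.H644

open Finset CT BP H899

variable {C : Ctx} {E : Env}

theorem mixProg (h : C.EnvOk E) (hq : 0 < C.p.q) (hL : C.p.L ≤ E.B)
    (hc : C.p.q ^ C.p.cmax ≤ E.B) : MixProg C E CT.pR CT.pRi := by
  have hM := CT.menv h hq hL
  have hlen : ∀ a < C.p.r, 310 * (a + 1) ≤ E.L := by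
    intro a ha
    rw [h.L]
    unfold Par2.L lab
    omega
  have hqc : ∀ d, C.DtOk d → ∀ x < C.p.n, C.p.q ^ d.c x ≤ E.B + 1 := by
    intro d hd x hx
    have h1 : C.p.q ^ d.c x ≤ C.p.q ^ C.p.cmax := Nat.pow_le_pow_right hq (hd.cm x hx)
    omega
  refine ⟨?_, ?_⟩
  · intro d hd V l0 hask s hv h6 h15
    have hx : s.reg 3 < C.p.n := hv.1
    obtain ⟨e1, e2, e3⟩ := CT.den_pR hM (V := V) (s := s) (c := d.c (s.reg 3)) hv.2.2 (hlen _ h6)
      (by rw [h15]; exact hask s.tp hv.2.2 _ hx) (hqc d hd _ hx)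
    refine ⟨?_, e3⟩
    ext1
    · exact e3 3 (by omega) (by omega)
    · exact e1
    · exact e2
  · intro d hd V l0 hask s hv h6 h15
    have hx : s.reg 3 < C.p.n := hv.1
    obtain ⟨e1, e2, e3⟩ := CT.den_pRi hM (V := V) (s := s) (c := d.c (s.reg 3)) hv.2.2 (hlen _ h6)
      (by rw [h15]; exact hask s.tp hv.2.2 _ hx) (hqc d hd _ hx)
    refine ⟨?_, e3⟩
    ext1
    · exact e3 3 (by omega) (by omega)
    · exact e1
    · exact e2

/-- The four programs. -/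
noncomputable def tours : H899.TP where
  t0 := tour0 CT.pR CT.pRi
  t1 := tour1 CT.pR CT.pRi
  lt := lossP CT.pR CT.pRi
  t2 := tour2 CT.pR CT.pRi

theorem tours_ok : tours.Ok :=
  ⟨tour0_ok CT.pR_ok CT.pRi_ok, tour1_ok CT.pR_ok CT.pRi_ok, lossP_ok CT.pR_ok CT.pRi_ok,
    tour2_ok CT.pR_ok CT.pRi_ok⟩

/-- THE GOALS OF THE FOUR TOURS. -/
theorem tours_goals (h : C.Hyp E) (hn : Num4 C.p E) (hL : C.p.L ≤ E.B)
    (hok : ∀ s < C.p.S, (wk C.p (C.dt s)).Ok E C.p.r)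
    (hB : ∀ s < C.p.S, Bridge C.p C.T (C.dt s)) : tours.Goals C E := by
  have hq := hn.q1
  have hcB := hn.cB
  have hc : C.p.q ^ C.p.cmax ≤ E.B := by
    have h1 : C.p.q ^ C.p.cmax ≤ (C.p.n + 1) * C.p.q ^ C.p.cmax :=
      Nat.le_mul_of_pos_left _ (Nat.succ_pos _)
    omega
  have hm := mixProg h.toEnvOk hq hL hc
  exact ⟨fun s hs => t0_goal h hn hm hs (hok s hs) (hB s hs),
    fun s hs => t1_goal h hn hm hs (hok s hs) (hB s hs),
    fun s hs => lt_goal h hn hm hs (hok s hs) (hB s hs),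
    fun s hs => t2_goal h hn hm hs (hok s hs) (hB s hs)⟩

end Vale.Agent.P313.H644
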