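import Vale.Agent.P313.H644.Tree

/-!
The depth-first tour of a backward tree: its result and the number of its steps.
-/

namespace Vale.Agent.P313.H644.Mv

open Finset

variable {α : Type*} {M : Mv α} {Z : ℕ → α → Prop} [∀ t y, Decidable (Z t y)] {g g2 : α → ℕ}
  {D Λ : ℕ} {P : ℕ → α → Prop}

/-- The result of the tour of the tree below a node which is not the root. -/
def Sub (M : Mv α) (Z : ℕ → α → Prop) [∀ t y, Decidable (Z t y)] (g g2 : α → ℕ) (D Λ : ℕ)
    (t : ℕ) (y : α) : Prop :=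
  ∀ z w a b, w < Λ →
    (w + M.wn t y < Λ → ∃ k, k + 1 ≤ 2 * M.wn t y ∧
      (M.step Z g g2 D Λ)^[k] ⟨y, t, .enter, z, w, a, b⟩ =
        ⟨y, t, .leave, z + zi Z t y, w + M.wn t y, a + (if z = 0 then M.sm Z g t y else 0),
          b + M.sl g2 t y⟩) ∧
    (Λ ≤ w + M.wn t y → ∃ k, k ≤ 2 * (Λ - w) + 1 ∧
      ((M.step Z g g2 D Λ)^[k] ⟨y, t, .enter, z, w, a, b⟩).m = .abort ∧
      Λ ≤ ((M.step Z g g2 D Λ)^[k] ⟨y, t, .enter, z, w, a, b⟩).w)

/-- The children number `j, ..., j + n` of a node. -/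
theorem kids (L : M.Law P D) {t : ℕ} (ht : t < D) {c : α} (hc : P (t + 1) c)
    (IH : ∀ y, P t y → Sub M Z g g2 D Λ t y) : ∀ n j, j + (n + 1) = M.nc t c → ∀ z w a b, w < Λ →
    (w + ∑ i ∈ range (n + 1), M.wn t (M.dn t c (j + i)) < Λ →
      ∃ k, k ≤ 2 * ∑ i ∈ range (n + 1), M.wn t (M.dn t c (j + i)) ∧
      (M.step Z g g2 D Λ)^[k] ⟨M.dn t c j, t, .enter, z, w, a, b⟩ =
        ⟨c, t + 1, .leave, z, w + ∑ i ∈ range (n + 1), M.wn t (M.dn t c (j + i)),
          a + (if z = 0 then ∑ i ∈ range (n + 1), M.sm Z g t (M.dn t c (j + i)) else 0),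
          b + ∑ i ∈ range (n + 1), M.sl g2 t (M.dn t c (j + i))⟩) ∧
    (Λ ≤ w + ∑ i ∈ range (n + 1), M.wn t (M.dn t c (j + i)) → ∃ k, k ≤ 2 * (Λ - w) + 1 ∧
      ((M.step Z g g2 D Λ)^[k] ⟨M.dn t c j, t, .enter, z, w, a, b⟩).m = .abort ∧
      Λ ≤ ((M.step Z g g2 D Λ)^[k] ⟨M.dn t c j, t, .enter, z, w, a, b⟩).w) := by
  intro n
  induction n with
  | zero =>
    intro j hj z w a b hw
    have hjc : j < M.nc t c := by omega
    have hP := L.dnP t ht c hc j hjc
    have H := IH _ hP z w a b hw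
    simp only [Nat.zero_add, range_one, sum_singleton, Nat.add_zero]
    refine ⟨fun h => ?_, H.2⟩
    obtain ⟨k, hk, e⟩ := H.1 h
    refine ⟨k + 1, hk, ?_⟩
    rw [Function.iterate_succ_apply', e]
    simp only [step]
    rw [if_neg (by omega), if_neg (by rw [L.idxdn t ht c hc j hjc, L.updn t ht c hc j hjc]; omega),
      L.updn t ht c hc j hjc]
    simp only [Nat.add_sub_cancel]
  | succ n ih =>
    intro j hj z w a b hw
    have hjc : j < M.nc t c := by omega
    have hP := L.dnP t ht c hc j hjc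
    have H := IH _ hP z w a b hw
    have es : ∀ f : ℕ → ℕ, ∑ i ∈ range (n + 1 + 1), f (j + i) =
        f j + ∑ i ∈ range (n + 1), f (j + 1 + i) := by
      intro f
      rw [sum_range_succ', Nat.add_comm]
      simp only [Nat.add_zero]
      congr 1
      refine sum_congr rfl fun i _ => ?_
      congr 1; omega
    rw [es (fun i => M.wn t (M.dn t c i)), es (fun i => M.sm Z g t (M.dn t c i)),
      es (fun i => M.sl g2 t (M.dn t c i))]
    have hpos := M.wn_pos t (M.dn t c j)
    have key : ∀ k, (M.step Z g g2 D Λ)^[k] ⟨M.dn t c j, t, .enter, z, w, a, b⟩ =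
        ⟨M.dn t c j, t, .leave, z + zi Z t (M.dn t c j), w + M.wn t (M.dn t c j),
          a + (if z = 0 then M.sm Z g t (M.dn t c j) else 0), b + M.sl g2 t (M.dn t c j)⟩ →
        (M.step Z g g2 D Λ)^[k + 1] ⟨M.dn t c j, t, .enter, z, w, a, b⟩ =
        ⟨M.dn t c (j + 1), t, .enter, z, w + M.wn t (M.dn t c j),
          a + (if z = 0 then M.sm Z g t (M.dn t c j) else 0), b + M.sl g2 t (M.dn t c j)⟩ := by
      intro k e
      rw [Function.iterate_succ_apply', e]
      simp only [step]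
      rw [if_neg (by omega), if_pos (by rw [L.idxdn t ht c hc j hjc, L.updn t ht c hc j hjc]; omega),
        L.updn t ht c hc j hjc, L.idxdn t ht c hc j hjc]
      simp only [Nat.add_sub_cancel]
    constructor
    · intro h
      obtain ⟨k, hk, e⟩ := H.1 (by omega)
      obtain ⟨k', hk', e'⟩ := (ih (j + 1) (by omega) z (w + M.wn t (M.dn t c j))
        (a + if z = 0 then M.sm Z g t (M.dn t c j) else 0) (b + M.sl g2 t (M.dn t c j))
        (by omega)).1 (by omega)
      refine ⟨k' + (k + 1), by omega, ?_⟩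
      rw [Function.iterate_add_apply, key k e, e']
      ext <;> simp only
      · omega
      · split_ifs <;> omega
      · omega
    · intro h
      by_cases hl : w + M.wn t (M.dn t c j) < Λ
      · obtain ⟨k, hk, e⟩ := H.1 hl
        obtain ⟨k', hk', e'⟩ := (ih (j + 1) (by omega) z (w + M.wn t (M.dn t c j))
          (a + if z = 0 then M.sm Z g t (M.dn t c j) else 0) (b + M.sl g2 t (M.dn t c j))
          hl).2 (by omega)
        refine ⟨k' + (k + 1), by omega, ?_⟩
        rw [Function.iterate_add_apply, key k e]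
        exact e'
      · obtain ⟨k, hk, e⟩ := H.2 (by omega)
        exact ⟨k, by omega, e⟩

theorem sub_all (L : M.Law P D) : ∀ t < D, ∀ y, P t y → Sub M Z g g2 D Λ t y := by
  intro t
  induction t with
  | zero =>
    intro hD y hy z w a b hw
    have he : ew D 0 = 1 := by unfold ew; rw [if_neg (by omega)]
    have hzi : zi Z 0 y = 0 := by simp [zi]
    simp only [wn, sm, sl, hzi, Nat.add_zero]
    constructor
    · intro h
      refine ⟨1, by omega, ?_⟩
      simp only [Function.iterate_one, step, he]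
      rw [if_neg (by omega)]
      simp
    · intro h
      refine ⟨1, by omega, ?_⟩
      simp only [Function.iterate_one, step, he]
      rw [if_pos h]
      exact ⟨rfl, h⟩
  | succ t ih =>
    intro hD y hy z w a b hw
    have he : ew D (t + 1) = 1 := by unfold ew; rw [if_neg (by omega)]
    simp only [wn, sm, sl]
    by_cases hab : Λ ≤ w + 1
    · refine ⟨fun h => by omega, fun _ => ⟨1, by omega, ?_⟩⟩
      simp only [Function.iterate_one, step, he]
      rw [if_pos hab]
      exact ⟨rfl, hab⟩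
    rcases Nat.eq_zero_or_pos (M.nc t y) with h0 | h0
    · have e1 : (M.step Z g g2 D Λ)^[1] ⟨y, t + 1, .enter, z, w, a, b⟩ =
          ⟨y, t + 1, .leave, z + zi Z (t + 1) y, w + 1, a, b⟩ := by
        simp only [Function.iterate_one, step, he]
        rw [if_neg hab, if_neg (by omega), if_neg (by simp only [Nat.add_sub_cancel]; omega)]
      rw [h0]
      simp only [range_zero, sum_empty, Nat.add_zero]
      refine ⟨fun h => ⟨1, by omega, ?_⟩, fun h => by omega⟩
      rw [e1]
      ext <;> simp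
    · obtain ⟨n, hn⟩ : ∃ n, M.nc t y = n + 1 := ⟨M.nc t y - 1, by omega⟩
      have e1 : (M.step Z g g2 D Λ)^[1] ⟨y, t + 1, .enter, z, w, a, b⟩ =
          ⟨M.dn t y 0, t, .enter, z + zi Z (t + 1) y, w + 1, a, b⟩ := by
        simp only [Function.iterate_one, step, he]
        rw [if_neg hab, if_neg (by omega), if_pos (by simp only [Nat.add_sub_cancel]; omega)]
        simp only [Nat.add_sub_cancel]
      have H := kids L (by omega) hy (ih (by omega)) n 0 (by omega) (z + zi Z (t + 1) y) (w + 1) a b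
        (by omega)
      simp only [Nat.zero_add] at H
      rw [hn]
      constructor
      · intro h
        obtain ⟨k, hk, e⟩ := H.1 (by omega)
        refine ⟨k + 1, by omega, ?_⟩
        rw [Function.iterate_add_apply, e1, e]
        ext <;> simp only
        · omega
        · simp only [zi, Nat.add_eq_zero_iff]
          by_cases hz : z = 0 <;> by_cases hZ : Z (t + 1) y <;> simp [hz, hZ]
      · intro h
        obtain ⟨k, hk, e⟩ := H.2 (by omega)
        refine ⟨k + 1, by omega, ?_⟩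
        rw [Function.iterate_add_apply, e1]
        exact e

/-- The aborted tour returns to the root. -/
theorem abort_up (L : M.Law P D) : ∀ n t c z w a b, t + n = D → P t c →
    (M.step Z g g2 D Λ)^[n + 1] ⟨c, t, .abort, z, w, a, b⟩ =
      ⟨M.ups t n c, D, .halt, z, w, a, b⟩ := by
  intro n
  induction n with
  | zero =>
    intro t c z w a b ht hP
    obtain rfl : t = D := by omega
    simp [step, ups]
  | succ n ih =>
    intro t c z w a b ht hP
    rw [Function.iterate_succ_apply]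
    have : M.step Z g g2 D Λ ⟨c, t, .abort, z, w, a, b⟩ = ⟨M.up t c, t + 1, .abort, z, w, a, b⟩ := by
      simp only [step]
      rw [if_neg (by omega)]
    rw [this, ih (t + 1) (M.up t c) z w a b (by omega) (L.upP t (by omega) c hP)]
    rfl

theorem iter_halt (n : ℕ) : ∀ s : TSt α, s.m = .halt → (M.step Z g g2 D Λ)^[n] s = s := by
  induction n with
  | zero => intro s _; rfl
  | succ n ih =>
    intro s hs
    rw [Function.iterate_succ_apply]
    have : M.step Z g g2 D Λ s = s := by simp [step, hs]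
    rw [this, ih s hs]

theorem inv_start {y : α} (hy : P D y) (hΛ : 1 ≤ Λ) (G G2 : ℕ) :
    Inv M P Z D Λ G G2 y ⟨y, D, .enter, 0, 0, 0, 0⟩ := by
  refine ⟨hy, le_rfl, by simp [ups], ?_, by simp, by simp, ?_, by simp, by simp⟩
  · intro _ _; simp [za]
  · intro _ _; simp only; omega

theorem inv_iter (L : M.Law P D) (hD : 1 ≤ D) {G G2 : ℕ} (hG : ∀ y, P 0 y → g y ≤ G)
    (hG2 : ∀ y, P 0 y → g2 y ≤ G2) {y0 : α} (n : ℕ) {s : TSt α} (h : Inv M P Z D Λ G G2 y0 s) :
    Inv M P Z D Λ G G2 y0 ((M.step Z g g2 D Λ)^[n] s) := by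
  induction n generalizing s with
  | zero => exact h
  | succ n ih =>
    rw [Function.iterate_succ_apply]
    exact ih (inv_step L hD hG hG2 h)

/-- The accumulators do not influence the other components. -/
theorem iter_congr {g' g2' : α → ℕ} : ∀ m (s s' : TSt α), s.c = s'.c → s.t = s'.t → s.m = s'.m →
    s.z = s'.z → s.w = s'.w →
    ((M.step Z g g2 D Λ)^[m] s).c = ((M.step Z g' g2' D Λ)^[m] s').c ∧
    ((M.step Z g g2 D Λ)^[m] s).t = ((M.step Z g' g2' D Λ)^[m] s').t ∧
    ((M.step Z g g2 D Λ)^[m] s).m = ((M.step Z g' g2' D Λ)^[m] s').m ∧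
    ((M.step Z g g2 D Λ)^[m] s).z = ((M.step Z g' g2' D Λ)^[m] s').z ∧
    ((M.step Z g g2 D Λ)^[m] s).w = ((M.step Z g' g2' D Λ)^[m] s').w := by
  intro m
  induction m with
  | zero => intro s s' a b c d e; exact ⟨a, b, c, d, e⟩
  | succ m ihm =>
    intro s s' a b c d e
    simp only [Function.iterate_succ_apply]
    obtain ⟨sc, st, sm, sz, sw, sa, sb⟩ := s
    obtain ⟨sc', st', sm', sz', sw', sa', sb'⟩ := s'
    dsimp only at a b c d e
    subst a b c d e
    apply ihm <;>
    · cases sm <;> simp only [step] <;> split_ifs <;> rfl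

/-- THE TOUR: after enough steps it has halted at the root, with the weight and the sums when the
weight is less than `Λ`. -/
theorem tour (L : M.Law P D) (hD : 1 ≤ D) (hΛ : 1 ≤ Λ) {y : α} (hy : P D y) {N : ℕ}
    (hN : 2 * Λ + D + 4 ≤ N) {s : TSt α}
    (hs : s = (M.step Z g g2 D Λ)^[N] ⟨y, D, .enter, 0, 0, 0, 0⟩) :
    s.c = y ∧ s.t = D ∧ s.m = .halt ∧
      (M.W D y < Λ → s.w = M.W D y ∧ s.a = M.sm Z g D y ∧ s.b = M.sl g2 D y) ∧
      (Λ ≤ M.W D y → Λ ≤ s.w) := by
  obtain ⟨t, rfl⟩ : ∃ t, D = t + 1 := ⟨D - 1, by omega⟩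
  have he : ew (t + 1) (t + 1) = 0 := by simp [ew]
  have hfin : ∀ k, k ≤ N → ∀ s' : TSt α,
      (M.step Z g g2 (t + 1) Λ)^[k] ⟨y, t + 1, .enter, 0, 0, 0, 0⟩ = s' → s'.m = .halt →
        s = s' := by
    intro k hk s' e hm
    obtain ⟨r, rfl⟩ := Nat.exists_eq_add_of_le hk
    rw [hs, Nat.add_comm k r, Function.iterate_add_apply, e, iter_halt r s' hm]
  -- the last step of the tour without abort
  have hleave : ∀ w a b, M.step Z g g2 (t + 1) Λ ⟨y, t + 1, .leave, zi Z (t + 1) y, w, a, b⟩ =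
      ⟨y, t + 1, .halt, 0, w, a, b⟩ := by
    intro w a b; simp [step]
  rcases Nat.eq_zero_or_pos (M.nc t y) with h0 | h0
  · have hW : M.W (t + 1) y = 0 := by simp [W, h0]
    have hS : M.sm Z g (t + 1) y = 0 := by simp [sm, h0]
    have hS2 : M.sl g2 (t + 1) y = 0 := by simp [sl, h0]
    have e1 : (M.step Z g g2 (t + 1) Λ)^[1] ⟨y, t + 1, .enter, 0, 0, 0, 0⟩ =
        ⟨y, t + 1, .leave, zi Z (t + 1) y, 0, 0, 0⟩ := by
      simp only [Function.iterate_one, step, he]
      rw [if_neg (by omega), if_neg (by omega), if_neg (by simp only [Nat.add_sub_cancel]; omega)]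
      simp
    have e2 : (M.step Z g g2 (t + 1) Λ)^[2] ⟨y, t + 1, .enter, 0, 0, 0, 0⟩ =
        ⟨y, t + 1, .halt, 0, 0, 0, 0⟩ := by
      rw [Function.iterate_succ_apply', e1, hleave]
    have := hfin 2 (by omega) _ e2 rfl
    subst this
    exact ⟨rfl, rfl, rfl, fun _ => ⟨hW.symm, hS.symm, hS2.symm⟩, fun h => by omega⟩
  · obtain ⟨n, hn⟩ : ∃ n, M.nc t y = n + 1 := ⟨M.nc t y - 1, by omega⟩
    have e1 : (M.step Z g g2 (t + 1) Λ)^[1] ⟨y, t + 1, .enter, 0, 0, 0, 0⟩ =
        ⟨M.dn t y 0, t, .enter, zi Z (t + 1) y, 0, 0, 0⟩ := by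
      simp only [Function.iterate_one, step, he]
      rw [if_neg (by omega), if_neg (by omega), if_pos (by simp only [Nat.add_sub_cancel]; omega)]
      simp
    have H := kids (Z := Z) (g := g) (g2 := g2) (Λ := Λ) L (Nat.lt_succ_self t) hy
      (fun y' hy' => sub_all L t (Nat.lt_succ_self t) y' hy') n 0 (by omega) (zi Z (t + 1) y) 0 0 0
      (by omega)
    simp only [Nat.zero_add] at H
    have hW : M.W (t + 1) y = ∑ i ∈ range (n + 1), M.wn t (M.dn t y i) := by
      simp only [W, hn]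
    rw [hW]
    by_cases hl : ∑ i ∈ range (n + 1), M.wn t (M.dn t y i) < Λ
    · obtain ⟨k, hk, e⟩ := H.1 hl
      have e2 : (M.step Z g g2 (t + 1) Λ)^[k + 1 + 1] ⟨y, t + 1, .enter, 0, 0, 0, 0⟩ =
          ⟨y, t + 1, .halt, 0, ∑ i ∈ range (n + 1), M.wn t (M.dn t y i),
            if zi Z (t + 1) y = 0 then ∑ i ∈ range (n + 1), M.sm Z g t (M.dn t y i) else 0,
            ∑ i ∈ range (n + 1), M.sl g2 t (M.dn t y i)⟩ := by
        rw [Function.iterate_succ_apply', Function.iterate_add_apply, e1, e]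
        exact hleave _ _ _
      have := hfin (k + 1 + 1) (by omega) _ e2 rfl
      subst this
      refine ⟨rfl, rfl, rfl, fun _ => ⟨rfl, ?_, ?_⟩, fun h => by omega⟩
      · simp only [sm, hn, zi]
        by_cases hZ : Z (t + 1) y <;> simp [hZ]
      · simp only [sl, hn]
    · obtain ⟨k, hk, em, ew'⟩ := H.2 (by omega)
      set s1 := (M.step Z g g2 (t + 1) Λ)^[k] ⟨M.dn t y 0, t, .enter, zi Z (t + 1) y, 0, 0, 0⟩
        with hs1
      have e2 : (M.step Z g g2 (t + 1) Λ)^[k + 1] ⟨y, t + 1, .enter, 0, 0, 0, 0⟩ = s1 := by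
        rw [Function.iterate_add_apply, e1]
      -- the invariant, with trivial bounds for the accumulators
      have hinv : ∃ t1 c1 z1 w1 a1 b1, s1 = ⟨c1, t1, .abort, z1, w1, a1, b1⟩ ∧ t1 ≤ t + 1 ∧
          P t1 c1 ∧ M.ups t1 (t + 1 - t1) c1 = y := by
        have hi := inv_iter (g := fun _ => 0) (g2 := fun _ => 0) (Z := Z) (Λ := Λ) (G := 0)
          (G2 := 0) L (by omega) (fun _ _ => le_rfl) (fun _ _ => le_rfl) (k + 1)
          (inv_start (M := M) (Z := Z) hy hΛ 0 0)
        have hc := iter_congr (M := M) (Z := Z) (D := t + 1) (Λ := Λ) (g := g) (g2 := g2)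
          (g' := fun _ => 0) (g2' := fun _ => 0) (k + 1) ⟨y, t + 1, .enter, 0, 0, 0, 0⟩
          ⟨y, t + 1, .enter, 0, 0, 0, 0⟩ rfl rfl rfl rfl rfl
        simp only [e2] at hc
        obtain ⟨c1, c2, c3, c4, c5⟩ := hc
        refine ⟨s1.t, s1.c, s1.z, s1.w, s1.a, s1.b, ?_, ?_, ?_, ?_⟩
        · ext <;> simp [em]
        · rw [c2]; exact hi.le
        · rw [c1, c2]; exact hi.val
        · rw [c1, c2]; exact hi.ups
      obtain ⟨t1, c1, z1, w1, a1, b1, e3, ht1, hP1, hu1⟩ := hinv
      have e4 : (M.step Z g g2 (t + 1) Λ)^[(t + 1 - t1 + 1) + (k + 1)]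
          ⟨y, t + 1, .enter, 0, 0, 0, 0⟩ = ⟨y, t + 1, .halt, z1, w1, a1, b1⟩ := by
        rw [Function.iterate_add_apply, e2, e3,
          abort_up L (t + 1 - t1) t1 c1 z1 w1 a1 b1 (by omega) hP1, hu1]
      have := hfin _ (by omega) _ e4 rfl
      subst this
      rw [e3] at ew'
      exact ⟨rfl, rfl, rfl, fun h => by omega, fun _ => ew'⟩

end Vale.Agent.P313.H644.Mv
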