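import Vale.Agent.P313.H644.V2
import Vale.Agent.P313.H644.Tour
import Vale.Agent.P313.H899.T0

/-!
The tour as a program. Registers: `0` level, `1` query, `2` result, `3` state `x` of the token,
`4` number `z` of the token, `5` number of a child, `6` mixing level, `7` absolute time, `8` mode,
`9` number of ancestors in `Z`, `10` weight, `11`, `12` accumulators, `13` first time, `14` last
time, `15` level of the data, `16` level `a` of the tree, `17` target state, `18` scratch, `19` the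
threshold.
-/

namespace Vale.Agent.P313.H644

open CT H899

/-- A command on the registers `0, ..., 19`. -/
def sg (i : ℕ) (f : TS.Fn 20) : CP := .set i 20 f (fun j => (j : ℕ))

theorem den_sg {E : Env} {V : Orc} (i : ℕ) (f : TS.Fn 20) (s : St) :
    den E V (sg i f) s = s.set i (min (f (inp E V s.tp) (fun j => s.reg j)) E.B) := rfl

theorem den_seq {E : Env} {V : Orc} (p q : CP) (s : St) :
    den E V (.seq p q) s = den E V q (den E V p s) := rfl

theorem den_ite {E : Env} {V : Orc} (r : ℕ) (p q : CP) (s : St) :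
    den E V (.ite r p q) s = if s.reg r ≠ 0 then den E V p s else den E V q s := rfl

theorem den_skip {E : Env} {V : Orc} (s : St) : den E V .skip s = s := rfl

theorem den_loop {E : Env} {V : Orc} (r : ℕ) (p : CP) (s : St) :
    den E V (.loop r p) s = (den E V p)^[s.reg r] s := rfl

/-- Up. -/
noncomputable def pUp (R : CP) : CP :=
  .seq (.ite 7 (.seq (sg 6 (fun _ a => v2 (a 7))) R) .skip)
  (.seq (sg 18 (fun I a => hfw I (a 15) (a 3) (a 4)))
  (.seq (sg 3 (fun _ a => (a 18).unpair.1))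
  (.seq (sg 4 (fun I a => (a 18).unpair.2 % Hf I (a 15) (a 3)))
  (.seq (sg 5 (fun I a => (a 18).unpair.2 / Hf I (a 15) (a 3)))
    (sg 7 (fun _ a => a 7 + 1))))))

/-- Is there a child with the number in register `5`? -/
def pTest : CP := sg 18 (fun I a => hbw I (a 15) (a 3) (a 4 + a 5 * Hf I (a 15) (a 3)))

/-- Down to the child in register `18`. -/
noncomputable def pDn (Ri : CP) : CP :=
  .seq (sg 3 (fun _ a => (a 18 - 1).unpair.1))
  (.seq (sg 4 (fun _ a => (a 18 - 1).unpair.2))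
  (.seq (sg 7 (fun _ a => a 7 - 1))
    (.ite 7 (.seq (sg 6 (fun _ a => v2 (a 7))) Ri) .skip)))

/-- A node is entered. -/
noncomputable def pEnter (Ri : CP) (fz gA gB : TS.Fn 20) : CP :=
  .seq (sg 10 (fun _ a => a 10 + if a 7 = a 14 then 0 else 1))
  (.seq (sg 18 (fun _ a => if a 19 ≤ a 10 then 1 else 0))
  (.ite 18 (sg 8 (fun _ _ => 3))
    (.seq (sg 18 (fun _ a => a 7 - a 13))
    (.ite 18
      (.seq (sg 9 (fun I a => a 9 + fz I a))
      (.seq (sg 5 (fun _ _ => 0))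
      (.seq pTest
      (.ite 18 (pDn Ri) (sg 8 (fun _ _ => 1))))))
      (.seq (sg 11 (fun I a => a 11 + if a 9 = 0 then gA I a else 0))
      (.seq (sg 12 (fun I a => a 12 + gB I a))
      (sg 8 (fun _ _ => 1))))))))

/-- A node is left. -/
noncomputable def pLeave (R Ri : CP) (fz : TS.Fn 20) : CP :=
  .seq (sg 9 (fun I a => a 9 - if a 7 = a 13 then 0 else fz I a))
  (.seq (sg 18 (fun _ a => if a 7 = a 14 then 1 else 0))
  (.ite 18 (sg 8 (fun _ _ => 2))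
    (.seq (pUp R)
    (.seq (sg 5 (fun _ a => a 5 + 1))
    (.seq pTest
    (.ite 18 (.seq (pDn Ri) (sg 8 (fun _ _ => 0))) .skip))))))

/-- Back to the root. -/
noncomputable def pAbort (R : CP) : CP :=
  .seq (sg 18 (fun _ a => if a 7 = a 14 then 1 else 0))
  (.ite 18 (sg 8 (fun _ _ => 2)) (pUp R))

/-- One step of the tour. -/
noncomputable def pStep (R Ri : CP) (fz gA gB : TS.Fn 20) : CP :=
  .ite 8
    (.seq (sg 18 (fun _ a => if a 8 = 1 then 1 else 0))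
    (.ite 18 (pLeave R Ri fz)
      (.seq (sg 18 (fun _ a => if a 8 = 3 then 1 else 0))
      (.ite 18 (pAbort R) .skip))))
    (pEnter Ri fz gA gB)

section ok

variable {R Ri : CP} {fz gA gB : TS.Fn 20}

theorem pUp_ok (hR : R.Ok) : (pUp R).Ok := by
  refine ⟨⟨⟨lf_v2 (TS.LF.proj 7), hR⟩, trivial⟩,
    lf_hfw (TS.LF.proj 15) (TS.LF.proj 3) (TS.LF.proj 4), lf_unpair1 (TS.LF.proj 18),
    (lf_unpair2 (TS.LF.proj 18)).mod (lf_Hf (TS.LF.proj 15) (TS.LF.proj 3)),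
    (lf_unpair2 (TS.LF.proj 18)).div (lf_Hf (TS.LF.proj 15) (TS.LF.proj 3)), ?_⟩
  exact (TS.LF.proj 7).succ

theorem pTest_ok : pTest.Ok :=
  lf_hbw (TS.LF.proj 15) (TS.LF.proj 3) ((TS.LF.proj 4).add
    ((TS.LF.proj 5).mul (lf_Hf (TS.LF.proj 15) (TS.LF.proj 3))))

theorem pDn_ok (hRi : Ri.Ok) : (pDn Ri).Ok :=
  ⟨lf_unpair1 ((TS.LF.proj 18).sub (TS.LF.const 1)),
    lf_unpair2 ((TS.LF.proj 18).sub (TS.LF.const 1)), (TS.LF.proj 7).sub (TS.LF.const 1),
    ⟨lf_v2 (TS.LF.proj 7), hRi⟩, trivial⟩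

theorem lf_eqI {k : ℕ} {f g u v : TS.Fn k} (hf : TS.LF f) (hg : TS.LF g) (hu : TS.LF u)
    (hv : TS.LF v) : TS.LF (fun I a => if f I a = g I a then u I a else v I a) :=
  TS.LF.ite (TS.LFP.eq hf hg) hu hv

theorem pEnter_ok (hRi : Ri.Ok) (hz : TS.LF fz) (hA : TS.LF gA) (hB : TS.LF gB) :
    (pEnter Ri fz gA gB).Ok := by
  refine ⟨(TS.LF.proj 10).add (lf_eqI (TS.LF.proj 7) (TS.LF.proj 14) (TS.LF.const 0)
    (TS.LF.const 1)), TS.LF.ite (TS.LFP.le (TS.LF.proj 19) (TS.LF.proj 10)) (TS.LF.const 1)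
    (TS.LF.const 0), TS.LF.const 3, (TS.LF.proj 7).sub (TS.LF.proj 13),
    ⟨(TS.LF.proj 9).add hz, TS.LF.const 0, pTest_ok, pDn_ok hRi, TS.LF.const 1⟩,
    (TS.LF.proj 11).add (lf_eqI (TS.LF.proj 9) (TS.LF.const 0) hA (TS.LF.const 0)),
    (TS.LF.proj 12).add hB, TS.LF.const 1⟩

theorem pLeave_ok (hR : R.Ok) (hRi : Ri.Ok) (hz : TS.LF fz) : (pLeave R Ri fz).Ok :=
  ⟨(TS.LF.proj 9).sub (lf_eqI (TS.LF.proj 7) (TS.LF.proj 13) (TS.LF.const 0) hz),
    lf_eqI (TS.LF.proj 7) (TS.LF.proj 14) (TS.LF.const 1) (TS.LF.const 0), TS.LF.const 2,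
    pUp_ok hR, (TS.LF.proj 5).succ, pTest_ok, ⟨pDn_ok hRi, TS.LF.const 0⟩, trivial⟩

theorem pAbort_ok (hR : R.Ok) : (pAbort R).Ok :=
  ⟨lf_eqI (TS.LF.proj 7) (TS.LF.proj 14) (TS.LF.const 1) (TS.LF.const 0), TS.LF.const 2,
    pUp_ok hR⟩

theorem pStep_ok (hR : R.Ok) (hRi : Ri.Ok) (hz : TS.LF fz) (hA : TS.LF gA) (hB : TS.LF gB) :
    (pStep R Ri fz gA gB).Ok :=
  ⟨⟨lf_eqI (TS.LF.proj 8) (TS.LF.const 1) (TS.LF.const 1) (TS.LF.const 0),
    pLeave_ok hR hRi hz, lf_eqI (TS.LF.proj 8) (TS.LF.const 3) (TS.LF.const 1) (TS.LF.const 0),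
    pAbort_ok hR, trivial⟩, pEnter_ok hRi hz hA hB⟩

end ok

end Vale.Agent.P313.H644
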