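import Vale.Agent.P313.H644.Prog

/-!
The moves of the tour on contents, and the meaning of the programs `pUp`, `pDn`.
-/

namespace Vale.Agent.P313.H644

open CT H899

/-- Contents: a token and the tape. -/
@[ext] structure Cn where
  x : ℕ
  z : ℕ
  tp : CT.Tape

/-- The content of a state. -/
def cn (s : St) : Cn := ⟨s.reg 3, s.reg 4, s.tp⟩

/-- Valid contents. -/
def Vd (E : Env) (n : ℕ) (H : ℕ → ℕ) (y : Cn) : Prop := y.x < n ∧ y.z < H y.x ∧ TOk E y.tp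

/-- A walk: `F v x` tokens go from `v` to `x`, there are `H v` tokens with state `v`, the mixing
maps. -/
structure Wk where
  n : ℕ
  F : ℕ → ℕ → ℕ
  H : ℕ → ℕ
  mix : ℕ → Cn → Cn
  unmix : ℕ → Cn → Cn

namespace Wk

variable (K : Wk)

/-- Forward hop. -/
def fwd (y : Cn) : Cn := ⟨upx K.n K.F y.x y.z, upz K.n K.F K.H y.x y.z, y.tp⟩

/-- Backward hop. -/
def bwd (y : Cn) (j : ℕ) : Cn := ⟨dnv K.n K.F K.H y.x y.z j, dnz K.n K.F K.H y.x y.z j, y.tp⟩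

/-- Mixing before the hop at time `T`. -/
noncomputable def mx (T : ℕ) (y : Cn) : Cn := if T = 0 then y else K.mix (v2 T) y

/-- Its inverse. -/
noncomputable def umx (T : ℕ) (y : Cn) : Cn := if T = 0 then y else K.unmix (v2 T) y

/-- The moves. -/
noncomputable def mv : Mv Cn where
  up T y := K.fwd (K.mx T y)
  idx T y := ix K.n K.F K.H (K.mx T y).x (K.mx T y).z
  nc _ y := nc K.n K.F K.H y.x y.z
  dn T y j := K.umx T (K.bwd y j)

/-- The laws of a walk with the levels below `r`. -/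
structure Ok (E : Env) (r : ℕ) : Prop where
  hF : ∀ v < K.n, rowS K.n K.F v = K.H v
  hH : ∀ v < K.n, 0 < K.H v
  mix_x : ∀ a < r, ∀ y, Vd E K.n K.H y → (K.mix a y).x = y.x
  unmix_x : ∀ a < r, ∀ y, Vd E K.n K.H y → (K.unmix a y).x = y.x
  mix_v : ∀ a < r, ∀ y, Vd E K.n K.H y → Vd E K.n K.H (K.mix a y)
  unmix_v : ∀ a < r, ∀ y, Vd E K.n K.H y → Vd E K.n K.H (K.unmix a y)
  mu : ∀ a < r, ∀ y, Vd E K.n K.H y → K.mix a (K.unmix a y) = y
  um : ∀ a < r, ∀ y, Vd E K.n K.H y → K.unmix a (K.mix a y) = y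

variable {K} {E : Env} {r : ℕ}

theorem Ok.fwd_v (h : K.Ok E r) {y : Cn} (hy : Vd E K.n K.H y) : Vd E K.n K.H (K.fwd y) := by
  have h1 : y.z < rowS K.n K.F y.x := by rw [h.hF _ hy.1]; exact hy.2.1
  exact ⟨upx_lt h1, upz_lt (h.hH _ (fx_lt h1)), hy.2.2⟩

theorem Ok.bwd_v (h : K.Ok E r) {y : Cn} (hy : Vd E K.n K.H y) {j : ℕ}
    (hj : j < nc K.n K.F K.H y.x y.z) : Vd E K.n K.H (K.bwd y j) := by
  have h1 := h.hH _ hy.1
  have h2 := dnv_lt h1 hj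
  refine ⟨h2, ?_, hy.2.2⟩
  have := dnz_lt hy.1 h1 hj
  rwa [h.hF _ h2] at this

theorem Ok.fwd_bwd (h : K.Ok E r) {y : Cn} (hy : Vd E K.n K.H y) {j : ℕ}
    (hj : j < nc K.n K.F K.H y.x y.z) : K.fwd (K.bwd y j) = y := by
  ext
  · exact upx_dn hy.1 (h.hH _ hy.1) hj
  · exact upz_dn hy.1 hy.2.1 hj
  · rfl

theorem Ok.bwd_fwd (h : K.Ok E r) {y : Cn} (hy : Vd E K.n K.H y) :
    K.bwd (K.fwd y) (ix K.n K.F K.H y.x y.z) = y := by
  have h1 : y.z < rowS K.n K.F y.x := by rw [h.hF _ hy.1]; exact hy.2.1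
  ext
  · exact dnv_up hy.1 h1
  · exact dnz_up hy.1 h1
  · rfl

theorem Ok.ix_bwd (_h : K.Ok E r) {y : Cn} (hy : Vd E K.n K.H y) {j : ℕ}
    (hj : j < nc K.n K.F K.H y.x y.z) :
    ix K.n K.F K.H (K.bwd y j).x (K.bwd y j).z = j :=
  ix_dn hy.1 hy.2.1 hj

theorem Ok.ix_lt_nc (h : K.Ok E r) {y : Cn} (hy : Vd E K.n K.H y) :
    ix K.n K.F K.H y.x y.z < nc K.n K.F K.H (K.fwd y).x (K.fwd y).z := by
  have h1 : y.z < rowS K.n K.F y.x := by rw [h.hF _ hy.1]; exact hy.2.1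
  exact ix_lt hy.1 h1 (h.hH _ (fx_lt h1))

theorem Ok.mx_v (h : K.Ok E r) {T : ℕ} (hT : T < 2 ^ r) {y : Cn} (hy : Vd E K.n K.H y) :
    Vd E K.n K.H (K.mx T y) := by
  unfold Wk.mx
  split_ifs with h0
  · exact hy
  · exact h.mix_v _ (v2_lt h0 hT) _ hy

theorem Ok.umx_v (h : K.Ok E r) {T : ℕ} (hT : T < 2 ^ r) {y : Cn} (hy : Vd E K.n K.H y) :
    Vd E K.n K.H (K.umx T y) := by
  unfold Wk.umx
  split_ifs with h0
  · exact hy
  · exact h.unmix_v _ (v2_lt h0 hT) _ hy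

theorem Ok.mx_umx (h : K.Ok E r) {T : ℕ} (hT : T < 2 ^ r) {y : Cn} (hy : Vd E K.n K.H y) :
    K.mx T (K.umx T y) = y := by
  unfold Wk.mx Wk.umx
  split_ifs with h0
  · rfl
  · exact h.mu _ (v2_lt h0 hT) _ hy

theorem Ok.umx_mx (h : K.Ok E r) {T : ℕ} (hT : T < 2 ^ r) {y : Cn} (hy : Vd E K.n K.H y) :
    K.umx T (K.mx T y) = y := by
  unfold Wk.mx Wk.umx
  split_ifs with h0
  · rfl
  · exact h.um _ (v2_lt h0 hT) _ hy

theorem Ok.mx_x (h : K.Ok E r) {T : ℕ} (hT : T < 2 ^ r) {y : Cn} (hy : Vd E K.n K.H y) :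
    (K.mx T y).x = y.x := by
  unfold Wk.mx
  split_ifs with h0
  · rfl
  · exact h.mix_x _ (v2_lt h0 hT) _ hy

theorem Ok.umx_x (h : K.Ok E r) {T : ℕ} (hT : T < 2 ^ r) {y : Cn} (hy : Vd E K.n K.H y) :
    (K.umx T y).x = y.x := by
  unfold Wk.umx
  split_ifs with h0
  · rfl
  · exact h.unmix_x _ (v2_lt h0 hT) _ hy

/-- The laws of the tour. -/
theorem Ok.law (h : K.Ok E r) {D : ℕ} (hD : D ≤ 2 ^ r) :
    K.mv.Law (fun _ y => Vd E K.n K.H y) D where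
  upP t ht y hy := h.fwd_v (h.mx_v (by omega) hy)
  dnP t ht y hy j hj := h.umx_v (by omega) (h.bwd_v hy hj)
  updn t ht y hy j hj := by
    change K.fwd (K.mx t (K.umx t (K.bwd y j))) = y
    rw [h.mx_umx (by omega) (h.bwd_v hy hj), h.fwd_bwd hy hj]
  idxdn t ht y hy j hj := by
    change ix K.n K.F K.H (K.mx t (K.umx t (K.bwd y j))).x (K.mx t (K.umx t (K.bwd y j))).z = j
    rw [h.mx_umx (by omega) (h.bwd_v hy hj), h.ix_bwd hy hj]

end Wk

/-- What the programs of the tour need: `l0` is the level of the data. -/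
structure Hyp (K : Wk) (E : Env) (V : Orc) (l0 r : ℕ) (R Ri : CP) : Prop where
  ok : K.Ok E r
  Hf : ∀ t, TOk E t → ∀ x < K.n, Hf (inp E V t) l0 x = K.H x
  fw : ∀ t, TOk E t → ∀ x < K.n, ∀ z < K.H x,
    hfw (inp E V t) l0 x z = Nat.pair (fx K.n K.F x z) (fr K.n K.F x z)
  bw : ∀ t, TOk E t → ∀ x < K.n, ∀ ρ ≤ colS K.n K.F x + K.H x,
    hbw (inp E V t) l0 x ρ = if colS K.n K.F x ≤ ρ then 0 else
      Nat.pair (bv K.n K.F x ρ) (bz K.n K.F x ρ) + 1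
  nB : K.n ≤ E.B
  cB : ∀ x < K.n, colS K.n K.F x + K.H x + 1 ≤ E.B
  rB : 2 ^ r + 1 ≤ E.B
  denR : ∀ s : St, Vd E K.n K.H (cn s) → s.reg 6 < r → s.reg 15 = l0 →
    cn (den E V R s) = K.mix (s.reg 6) (cn s) ∧
      ∀ i < 20, i ≠ 4 → (den E V R s).reg i = s.reg i
  denRi : ∀ s : St, Vd E K.n K.H (cn s) → s.reg 6 < r → s.reg 15 = l0 →
    cn (den E V Ri s) = K.unmix (s.reg 6) (cn s) ∧
      ∀ i < 20, i ≠ 4 → (den E V Ri s).reg i = s.reg i

section den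

variable {K : Wk} {E : Env} {V : Orc} {l0 r : ℕ} {R Ri : CP}

theorem den_sg' {i : ℕ} {f : TS.Fn 20} {s : St} {v : ℕ}
    (hv : f (inp E V s.tp) (fun j => s.reg j) = v) (hB : v ≤ E.B) :
    den E V (sg i f) s = s.set i v := by
  rw [den_sg, hv, min_eq_left hB]

theorem set_self (s : St) (i v : ℕ) : (s.set i v).reg i = v := by simp

theorem set_ne (s : St) {i j : ℕ} (v : ℕ) (h : j ≠ i) : (s.set i v).reg j = s.reg j := by
  simp [h]

/-- Mixing. -/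
theorem den_mx (h : Hyp K E V l0 r R Ri) {s : St} (hv : Vd E K.n K.H (cn s))
    (hT : s.reg 7 < 2 ^ r) (h15 : s.reg 15 = l0) {s1 : St}
    (e1 : den E V (.ite 7 (.seq (sg 6 (fun _ a => v2 (a 7))) R) .skip) s = s1) :
    cn s1 = K.mx (s.reg 7) (cn s) ∧ ∀ i, 7 ≤ i → i < 20 → s1.reg i = s.reg i := by
  have hr := h.rB
  have hrr : r < 2 ^ r := Nat.lt_two_pow_self
  rw [den_ite] at e1
  split_ifs at e1 with h0
  · have hvl := v2_lt h0 hT
    rw [den_seq, den_sg' (v := v2 (s.reg 7)) rfl (by omega)] at e1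
    have h1 := h.denR (s.set 6 (v2 (s.reg 7))) (by exact hv)
      (by rw [set_self]; exact hvl) (by rw [set_ne _ _ (by omega)]; exact h15)
    rw [e1] at h1
    refine ⟨?_, fun i hi1 hi2 => ?_⟩
    · rw [h1.1]
      unfold Wk.mx
      rw [if_neg h0, set_self]
      rfl
    · rw [h1.2 i hi2 (by omega), set_ne _ _ (by omega)]
  · rw [den_skip] at e1
    subst e1
    refine ⟨?_, fun _ _ _ => rfl⟩
    unfold Wk.mx
    rw [if_pos (by simpa using h0)]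

/-- Unmixing. -/
theorem den_umx (h : Hyp K E V l0 r R Ri) {s : St} (hv : Vd E K.n K.H (cn s))
    (hT : s.reg 7 < 2 ^ r) (h15 : s.reg 15 = l0) {s1 : St}
    (e1 : den E V (.ite 7 (.seq (sg 6 (fun _ a => v2 (a 7))) Ri) .skip) s = s1) :
    cn s1 = K.umx (s.reg 7) (cn s) ∧ ∀ i, 7 ≤ i → i < 20 → s1.reg i = s.reg i := by
  have hr := h.rB
  have hrr : r < 2 ^ r := Nat.lt_two_pow_self
  rw [den_ite] at e1
  split_ifs at e1 with h0
  · have hvl := v2_lt h0 hT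
    rw [den_seq, den_sg' (v := v2 (s.reg 7)) rfl (by omega)] at e1
    have h1 := h.denRi (s.set 6 (v2 (s.reg 7))) (by exact hv)
      (by rw [set_self]; exact hvl) (by rw [set_ne _ _ (by omega)]; exact h15)
    rw [e1] at h1
    refine ⟨?_, fun i hi1 hi2 => ?_⟩
    · rw [h1.1]
      unfold Wk.umx
      rw [if_neg h0, set_self]
      rfl
    · rw [h1.2 i hi2 (by omega), set_ne _ _ (by omega)]
  · rw [den_skip] at e1
    subst e1
    refine ⟨?_, fun _ _ _ => rfl⟩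
    unfold Wk.umx
    rw [if_pos (by simpa using h0)]

theorem den_pUp (h : Hyp K E V l0 r R Ri) {s : St} (hv : Vd E K.n K.H (cn s))
    (hT : s.reg 7 < 2 ^ r) (h15 : s.reg 15 = l0) :
    cn (den E V (pUp R) s) = K.mv.up (s.reg 7) (cn s) ∧
      (den E V (pUp R) s).reg 5 = K.mv.idx (s.reg 7) (cn s) ∧
      (den E V (pUp R) s).reg 7 = s.reg 7 + 1 ∧
      ∀ i, 8 ≤ i → i < 20 → i ≠ 18 → (den E V (pUp R) s).reg i = s.reg i := by
  have hr := h.rB
  obtain ⟨s1, e1⟩ : ∃ s1, den E V (.ite 7 (.seq (sg 6 (fun _ a => v2 (a 7))) R) .skip) s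
      = s1 := ⟨_, rfl⟩
  obtain ⟨hc1, hi1⟩ := den_mx h hv hT h15 e1
  have hv1 : Vd E K.n K.H (cn s1) := by rw [hc1]; exact h.ok.mx_v hT hv
  have hx1 : s1.reg 3 < K.n := hv1.1
  have hz0 : s1.reg 4 < K.H (s1.reg 3) := hv1.2.1
  have hz1 : s1.reg 4 < rowS K.n K.F (s1.reg 3) := by rw [h.ok.hF _ hx1]; exact hz0
  have hx2 : upx K.n K.F (s1.reg 3) (s1.reg 4) < K.n := upx_lt hz1
  have hfw' := h.fw s1.tp hv1.2.2 (s1.reg 3) hx1 (s1.reg 4) hz0
  have hHf := h.Hf s1.tp hv1.2.2 _ hx2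
  have hlt := fr_lt hx1 hz1
  have hcB := h.cB _ hx2
  have hnB := h.nB
  have h15' : s1.reg 15 = l0 := by rw [hi1 15 (by omega) (by omega), h15]
  have h7' : s1.reg 7 = s.reg 7 := hi1 7 (by omega) (by omega)
  have hpB : Nat.pair (fx K.n K.F (s1.reg 3) (s1.reg 4)) (fr K.n K.F (s1.reg 3) (s1.reg 4)) ≤
      E.B := by
    rw [← hfw']
    unfold hfw
    rw [ask_inp]
    exact min_le_right _ _
  -- the hop
  set P := Nat.pair (fx K.n K.F (s1.reg 3) (s1.reg 4)) (fr K.n K.F (s1.reg 3) (s1.reg 4)) with hP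
  have hz2 : upz K.n K.F K.H (s1.reg 3) (s1.reg 4) < K.H (upx K.n K.F (s1.reg 3) (s1.reg 4)) :=
    upz_lt (h.ok.hH _ hx2)
  have hix : ix K.n K.F K.H (s1.reg 3) (s1.reg 4) ≤ fr K.n K.F (s1.reg 3) (s1.reg 4) :=
    Nat.div_le_self _ _
  change fr K.n K.F (s1.reg 3) (s1.reg 4) < colS K.n K.F (upx K.n K.F (s1.reg 3) (s1.reg 4))
    at hlt
  have key : den E V (pUp R) s = ((((s1.set 18 P).set 3 (upx K.n K.F (s1.reg 3)
      (s1.reg 4))).set 4 (upz K.n K.F K.H (s1.reg 3) (s1.reg 4))).set 5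
      (ix K.n K.F K.H (s1.reg 3) (s1.reg 4))).set 7 (s1.reg 7 + 1) := by
    unfold pUp
    rw [den_seq, e1, den_seq, den_sg' (i := 18) (v := P) ?_ hpB, den_seq,
      den_sg' (i := 3) (v := upx K.n K.F (s1.reg 3) (s1.reg 4)) ?_ (by omega), den_seq,
      den_sg' (i := 4) (v := upz K.n K.F K.H (s1.reg 3) (s1.reg 4)) ?_ (by omega), den_seq,
      den_sg' (i := 5) (v := ix K.n K.F K.H (s1.reg 3) (s1.reg 4)) ?_ (by omega),
      den_sg' (i := 7) (v := s1.reg 7 + 1) ?_ (by omega)]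
    · rfl
    · change (Nat.unpair P).2 / Hf (inp E V s1.tp) (s1.reg 15) (upx K.n K.F (s1.reg 3)
        (s1.reg 4)) = _
      rw [h15', hHf, hP, Nat.unpair_pair]
      rfl
    · change (Nat.unpair P).2 % Hf (inp E V s1.tp) (s1.reg 15) (upx K.n K.F (s1.reg 3)
        (s1.reg 4)) = _
      rw [h15', hHf, hP, Nat.unpair_pair]
      rfl
    · change (Nat.unpair P).1 = _
      rw [hP, Nat.unpair_pair]
      rfl
    · change hfw (inp E V s1.tp) (s1.reg 15) (s1.reg 3) (s1.reg 4) = P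
      rw [h15', hfw']
  rw [key]
  refine ⟨?_, ?_, ?_, ?_⟩
  · change _ = K.fwd (K.mx (s.reg 7) (cn s))
    rw [← hc1]
    rfl
  · change _ = ix K.n K.F K.H (K.mx (s.reg 7) (cn s)).x (K.mx (s.reg 7) (cn s)).z
    rw [← hc1]
    rfl
  · rw [set_self, h7']
  · intro i hi1' hi2 hi3
    rw [set_ne _ _ (by omega), set_ne _ _ (by omega), set_ne _ _ (by omega),
      set_ne _ _ (by omega), set_ne _ _ hi3]
    exact hi1 i (by omega) hi2

/-- The test. -/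
theorem den_pTest (h : Hyp K E V l0 r R Ri) {s : St} (hv : Vd E K.n K.H (cn s))
    (h15 : s.reg 15 = l0) (hj : s.reg 5 ≤ nc K.n K.F K.H (s.reg 3) (s.reg 4)) :
    den E V pTest s = s.set 18 (if s.reg 5 < nc K.n K.F K.H (s.reg 3) (s.reg 4) then
      Nat.pair (K.bwd (cn s) (s.reg 5)).x (K.bwd (cn s) (s.reg 5)).z + 1 else 0) := by
  have hx : s.reg 3 < K.n := hv.1
  have hz : s.reg 4 < K.H (s.reg 3) := hv.2.1
  have hH := h.ok.hH _ hx
  have hρ : s.reg 4 + s.reg 5 * K.H (s.reg 3) ≤ colS K.n K.F (s.reg 3) + K.H (s.reg 3) := by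
    rcases Nat.eq_zero_or_pos (s.reg 5) with h0 | h0
    · rw [h0]; omega
    · have h1 : s.reg 5 - 1 < nc K.n K.F K.H (s.reg 3) (s.reg 4) := by omega
      rw [lt_nc hH] at h1
      obtain ⟨j, hj'⟩ : ∃ j, s.reg 5 = j + 1 := ⟨s.reg 5 - 1, by omega⟩
      rw [hj'] at h1 ⊢
      rw [Nat.add_sub_cancel] at h1
      rw [Nat.succ_mul]
      omega
  have hbw' := h.bw s.tp hv.2.2 (s.reg 3) hx _ hρ
  have hHf := h.Hf s.tp hv.2.2 _ hx
  refine den_sg' ?_ ?_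
  · change hbw (inp E V s.tp) (s.reg 15) (s.reg 3) (s.reg 4 + s.reg 5 *
      Hf (inp E V s.tp) (s.reg 15) (s.reg 3)) = _
    rw [h15, hHf, hbw']
    by_cases h1 : s.reg 5 < nc K.n K.F K.H (s.reg 3) (s.reg 4)
    · rw [if_pos h1, if_neg]
      · rfl
      · rw [lt_nc hH] at h1; omega
    · rw [if_neg h1, if_pos]
      rw [lt_nc hH] at h1; omega
  · split_ifs with h1
    · have h2 : ¬ (colS K.n K.F (s.reg 3) ≤ s.reg 4 + s.reg 5 * K.H (s.reg 3)) := by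
        rw [lt_nc hH] at h1; omega
      rw [if_neg h2] at hbw'
      change Nat.pair (bv K.n K.F (s.reg 3) (s.reg 4 + s.reg 5 * K.H (s.reg 3)))
        (bz K.n K.F (s.reg 3) (s.reg 4 + s.reg 5 * K.H (s.reg 3))) + 1 ≤ _
      rw [← hbw']
      unfold hbw
      rw [ask_inp]
      exact min_le_right _ _
    · exact Nat.zero_le _

/-- Down. -/
theorem den_pDn (h : Hyp K E V l0 r R Ri) {s : St} {y : Cn} {j T : ℕ} (hv : Vd E K.n K.H y)
    (hj : j < nc K.n K.F K.H y.x y.z) (ht : s.tp = y.tp)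
    (h18 : s.reg 18 = Nat.pair (K.bwd y j).x (K.bwd y j).z + 1) (h7 : s.reg 7 = T + 1)
    (hT : T < 2 ^ r) (h15 : s.reg 15 = l0) :
    cn (den E V (pDn Ri) s) = K.mv.dn T y j ∧
      (den E V (pDn Ri) s).reg 7 = T ∧
      ∀ i, 8 ≤ i → i < 20 → i ≠ 18 → (den E V (pDn Ri) s).reg i = s.reg i := by
  have hb := h.ok.bwd_v hv hj
  have hr := h.rB
  have hnB := h.nB
  have hcB := h.cB _ hb.1
  have key : den E V (pDn Ri) s = den E V (.ite 7 (.seq (sg 6 (fun _ a => v2 (a 7))) Ri) .skip)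
      (((s.set 3 (K.bwd y j).x).set 4 (K.bwd y j).z).set 7 T) := by
    unfold pDn
    rw [den_seq, den_sg' (i := 3) (v := (K.bwd y j).x) ?_ (by have := hb.1; omega), den_seq,
      den_sg' (i := 4) (v := (K.bwd y j).z) ?_ (by have := hb.2.1; omega), den_seq,
      den_sg' (i := 7) (v := T) ?_ (by omega)]
    · change s.reg 7 - 1 = T
      omega
    · change (Nat.unpair (s.reg 18 - 1)).2 = _
      rw [h18, Nat.add_sub_cancel, Nat.unpair_pair]
    · change (Nat.unpair (s.reg 18 - 1)).1 = _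
      rw [h18, Nat.add_sub_cancel, Nat.unpair_pair]
  obtain ⟨s1, e1⟩ : ∃ s1, den E V (.ite 7 (.seq (sg 6 (fun _ a => v2 (a 7))) Ri) .skip)
      (((s.set 3 (K.bwd y j).x).set 4 (K.bwd y j).z).set 7 T) = s1 := ⟨_, rfl⟩
  have hcn : cn (((s.set 3 (K.bwd y j).x).set 4 (K.bwd y j).z).set 7 T) = K.bwd y j := by
    ext1
    · rfl
    · rfl
    · exact ht
  obtain ⟨hc1, hi1⟩ := den_umx h (by rw [hcn]; exact hb) (by rw [set_self]; exact hT)
    (by rw [set_ne _ _ (by omega), set_ne _ _ (by omega), set_ne _ _ (by omega)]; exact h15) e1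
  rw [key, e1]
  refine ⟨?_, ?_, ?_⟩
  · rw [hc1, set_self, hcn]
    rfl
  · rw [hi1 7 (by omega) (by omega), set_self]
  · intro i hi1' hi2 hi3
    rw [hi1 i (by omega) hi2, set_ne _ _ (by omega), set_ne _ _ (by omega),
      set_ne _ _ (by omega)]

end den

end Vale.Agent.P313.H644
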