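import Vale.Agent.P313.H644.Sim
import Vale.Agent.P313.H644.Split

/-!
One step of the program of the tour is one step of the tour.
-/

namespace Vale.Agent.P313.H644

open CT H899

/-- Codes of the modes. -/
def mc : Mode → ℕ
  | .enter => 0
  | .leave => 1
  | .halt => 2
  | .abort => 3

/-- The state `s` of the program represents the state `σ` of the tour. -/
structure Rel (l0 Λ t0 D av vv : ℕ) (s : St) (σ : TSt Cn) : Prop where
  c : cn s = σ.c
  t : s.reg 7 = t0 + σ.t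
  m : s.reg 8 = mc σ.m
  z : s.reg 9 = σ.z
  w : s.reg 10 = σ.w
  a : s.reg 11 = σ.a
  b : s.reg 12 = σ.b
  k13 : s.reg 13 = t0
  k14 : s.reg 14 = t0 + D
  k15 : s.reg 15 = l0
  k16 : s.reg 16 = av
  k17 : s.reg 17 = vv
  k19 : s.reg 19 = Λ

/-- The exceptional set on contents. -/
abbrev Zx (Zp : ℕ → Prop) : ℕ → Cn → Prop := fun _ y => Zp y.x

section

variable {K : Wk} {E : Env} {V : Orc} {l0 r : ℕ} {R Ri : CP} {Λ t0 D av vv : ℕ}
  {Zp : ℕ → Prop} [DecidablePred Zp] {g g2 : Cn → ℕ} {fz gA gB : TS.Fn 20} {G G2 : ℕ}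
  {y0 : Cn}

/-- What the programs for the exceptional set and for the leaves have to do. -/
structure LHyp (K : Wk) (E : Env) (V : Orc) (l0 Λ t0 D av vv : ℕ) (Zp : ℕ → Prop)
    [DecidablePred Zp] (g g2 : Cn → ℕ) (fz gA gB : TS.Fn 20) (G G2 r : ℕ) : Prop where
  fzE : ∀ s : St, Vd E K.n K.H (cn s) → s.reg 15 = l0 →
    fz (inp E V s.tp) (fun j => s.reg j) = if Zp (s.reg 3) then 1 else 0
  gAE : ∀ s : St, Vd E K.n K.H (cn s) → s.reg 15 = l0 → s.reg 16 = av → s.reg 17 = vv →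
    s.reg 19 = Λ → gA (inp E V s.tp) (fun j => s.reg j) = g (cn s)
  gBE : ∀ s : St, Vd E K.n K.H (cn s) → s.reg 15 = l0 → s.reg 16 = av → s.reg 17 = vv →
    s.reg 19 = Λ → gB (inp E V s.tp) (fun j => s.reg j) = g2 (cn s)
  gG : ∀ y, Vd E K.n K.H y → g y ≤ G
  gG2 : ∀ y, Vd E K.n K.H y → g2 y ≤ G2
  GB : G * Λ ≤ E.B
  G2B : G2 * Λ ≤ E.B
  LB : Λ ≤ E.B
  D1 : 1 ≤ D
  Dr : t0 + D ≤ 2 ^ r
  B3 : 3 ≤ E.B

theorem nc_le_B (h : Hyp K E V l0 r R Ri) {y : Cn} (hy : Vd E K.n K.H y) :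
    nc K.n K.F K.H y.x y.z ≤ E.B := by
  have h1 := nc_le (n := K.n) (F := K.F) (H := K.H) y.x y.z
  have h2 := h.cB _ hy.1
  have h3 : colS K.n K.F y.x / K.H y.x ≤ colS K.n K.F y.x := Nat.div_le_self _ _
  omega

theorem LHyp.law (h : Hyp K E V l0 r R Ri) (hl : LHyp K E V l0 Λ t0 D av vv Zp g g2 fz gA gB G G2 r) :
    (K.mv.shift t0).Law (fun _ y => Vd E K.n K.H y) D :=
  Mv.Law.shift _ (h.ok.law hl.Dr)

/-- A node is entered. -/
theorem den_pEnter (h : Hyp K E V l0 r R Ri)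
    (hl : LHyp K E V l0 Λ t0 D av vv Zp g g2 fz gA gB G G2 r) {s : St} {σ : TSt Cn}
    (hI : Mv.Inv (K.mv.shift t0) (fun _ y => Vd E K.n K.H y) (Zx Zp) D Λ G G2 y0 σ)
    (hR : Rel l0 Λ t0 D av vv s σ) (hm : σ.m = .enter) :
    Rel l0 Λ t0 D av vv (den E V (pEnter Ri fz gA gB) s)
      ((K.mv.shift t0).step (Zx Zp) g g2 D Λ σ) := by
  have hI2 := Mv.inv_step (hl.law h) hl.D1 hl.gG hl.gG2 hI
  have hLB := hl.LB
  have hD1 := hl.D1
  have hDr := hl.Dr
  have hrB := h.rB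
  have hB3 := hl.B3
  obtain ⟨c, t, m, z, w, a, b⟩ := σ
  obtain ⟨hv, hle, -, -, hzle, hwL, hwl, haG, hbG⟩ := hI
  obtain ⟨r1, r2, r3, r4, r5, r6, r7, r8, r9, r10, r11, r12, r13⟩ := hR
  dsimp only at hv hle hzle hwL hwl haG hbG r1 r2 r3 r4 r5 r6 r7 r8 r9 r10 r11 r12 r13 hm
  subst hm
  have hwl' : w < Λ := hwl (by simp) (by simp)
  have he : Mv.ew D t ≤ 1 := by unfold Mv.ew; split_ifs <;> omega
  have hvs : Vd E K.n K.H (cn s) := by rw [r1]; exact hv
  -- weight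
  unfold pEnter
  rw [den_seq, den_sg' (i := 10) (v := w + Mv.ew D t) ?_ (by omega)]
  swap
  · change s.reg 10 + (if s.reg 7 = s.reg 14 then 0 else 1) = _
    rw [r2, r9, r5]
    unfold Mv.ew
    by_cases h1 : t = D
    · rw [if_pos h1, if_pos (by omega)]
    · rw [if_neg h1, if_neg (by omega)]
  rw [den_seq, den_sg' (i := 18) (v := if Λ ≤ w + Mv.ew D t then 1 else 0) ?_
    (by split_ifs <;> omega)]
  swap
  · change (if s.reg 19 ≤ w + Mv.ew D t then 1 else 0) = _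
    rw [r13]
  simp only [Mv.step] at hI2 ⊢
  by_cases i1 : Λ ≤ w + Mv.ew D t
  · -- abort
    rw [if_pos i1] at hI2 ⊢
    rw [if_pos i1, den_ite, set_self, if_pos (by omega),
      den_sg' (i := 8) (v := 3) rfl (by omega)]
    exact ⟨r1, r2, rfl, r4, rfl, r6, r7, r8, r9, r10, r11, r12, r13⟩
  rw [if_neg i1] at hI2 ⊢
  rw [if_neg i1, den_ite, set_self, if_neg (by omega), den_seq,
    den_sg' (i := 18) (v := t) ?_ (by omega)]
  swap
  · change s.reg 7 - s.reg 13 = t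
    omega
  rw [den_ite, set_self]
  by_cases i2 : t = 0
  · -- a leaf
    rw [if_pos i2] at hI2 ⊢
    rw [if_neg (by omega)]
    have ha := hI2.a
    have hb := hI2.b
    have hw := hI2.w
    dsimp only at ha hb hw
    have ha' : (a + if z = 0 then g c else 0) ≤ E.B :=
      ha.trans ((Nat.mul_le_mul_left _ hw).trans hl.GB)
    have hb' : b + g2 c ≤ E.B := hb.trans ((Nat.mul_le_mul_left _ hw).trans hl.G2B)
    rw [den_seq, den_sg' (i := 11) (v := a + if z = 0 then g c else 0) ?_ ha']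
    swap
    · change s.reg 11 + (if s.reg 9 = 0 then gA (inp E V s.tp) (fun j => St.reg
        (((s.set 10 (w + Mv.ew D t)).set 18 0).set 18 t) j) else 0) = _
      rw [r6, r4]
      congr 1
      by_cases i3 : z = 0
      · rw [if_pos i3, if_pos i3]
        have := hl.gAE (((s.set 10 (w + Mv.ew D t)).set 18 0).set 18 t) hvs r10 r11 r12 r13
        exact this.trans (congrArg g r1)
      · rw [if_neg i3, if_neg i3]
    rw [den_seq, den_sg' (i := 12) (v := b + g2 c) ?_ hb']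
    swap
    · change s.reg 12 + gB (inp E V s.tp) (fun j => St.reg
        ((((s.set 10 (w + Mv.ew D t)).set 18 0).set 18 t).set 11
          (a + if z = 0 then g c else 0)) j) = _
      rw [r7]
      congr 1
      have := hl.gBE ((((s.set 10 (w + Mv.ew D t)).set 18 0).set 18 t).set 11
          (a + if z = 0 then g c else 0)) hvs r10 r11 r12 r13
      exact this.trans (congrArg g2 r1)
    rw [den_sg' (i := 8) (v := 1) rfl (by omega)]
    exact ⟨r1, r2, rfl, r4, rfl, rfl, rfl, r8, r9, r10, r11, r12, r13⟩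
  -- an inner node
  rw [if_neg i2] at hI2 ⊢
  rw [if_pos i2]
  have hzi : Mv.zi (Zx Zp) t c = if Zp c.x then 1 else 0 := by
    simp [Mv.zi, i2]
  have hz2 : z + Mv.zi (Zx Zp) t c ≤ D + 1 := by
    have := hI2.zle
    split_ifs at this <;> exact this
  rw [den_seq, den_sg' (i := 9) (v := z + Mv.zi (Zx Zp) t c) ?_ (by omega)]
  swap
  · change s.reg 9 + fz (inp E V s.tp) (fun j => St.reg
        (((s.set 10 (w + Mv.ew D t)).set 18 0).set 18 t) j) = _
    have := hl.fzE (((s.set 10 (w + Mv.ew D t)).set 18 0).set 18 t) hvs r10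
    rw [r4, hzi]
    congr 1
    rw [← r1]
    exact this
  rw [den_seq, den_sg' (i := 5) (v := 0) rfl (by omega), den_seq]
  set s4 := (((((s.set 10 (w + Mv.ew D t)).set 18 0).set 18 t).set 9
    (z + Mv.zi (Zx Zp) t c)).set 5 0) with hs4
  have hc4 : cn s4 = c := r1
  rw [den_pTest h (s := s4) hvs r10 (Nat.zero_le _)]
  rw [hc4]
  have e53 : s4.reg 3 = c.x := by rw [← hc4]; rfl
  have e54 : s4.reg 4 = c.z := by rw [← hc4]; rfl
  have e55 : s4.reg 5 = 0 := rfl
  rw [e53, e54, e55, den_ite, set_self]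
  have hnc : (K.mv.shift t0).nc (t - 1) c = nc K.n K.F K.H c.x c.z := rfl
  rw [hnc] at hI2 ⊢
  by_cases i3 : 0 < nc K.n K.F K.H c.x c.z
  · rw [if_pos i3, if_pos i3, if_pos (Nat.succ_ne_zero _)]
    have hd := den_pDn h (s := s4.set 18 (Nat.pair (K.bwd c 0).x (K.bwd c 0).z + 1)) (y := c)
      (j := 0) (T := t0 + (t - 1)) hv i3 (by rw [← hc4]; rfl) (by rw [set_self])
      (by rw [set_ne _ _ (by omega)]; change s.reg 7 = _; omega) (by omega) r10
    obtain ⟨d1, d2, d3⟩ := hd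
    refine ⟨d1, d2, ?_, ?_, ?_, ?_, ?_, ?_, ?_, ?_, ?_, ?_, ?_⟩
    · rw [d3 8 (by omega) (by omega) (by omega)]; exact r3
    · rw [d3 9 (by omega) (by omega) (by omega)]; rfl
    · rw [d3 10 (by omega) (by omega) (by omega)]; rfl
    · rw [d3 11 (by omega) (by omega) (by omega)]; exact r6
    · rw [d3 12 (by omega) (by omega) (by omega)]; exact r7
    · rw [d3 13 (by omega) (by omega) (by omega)]; exact r8
    · rw [d3 14 (by omega) (by omega) (by omega)]; exact r9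
    · rw [d3 15 (by omega) (by omega) (by omega)]; exact r10
    · rw [d3 16 (by omega) (by omega) (by omega)]; exact r11
    · rw [d3 17 (by omega) (by omega) (by omega)]; exact r12
    · rw [d3 19 (by omega) (by omega) (by omega)]; exact r13
  · rw [if_neg i3, if_neg i3, if_neg (by omega), den_sg' (i := 8) (v := 1) rfl (by omega)]
    exact ⟨r1, r2, rfl, rfl, rfl, r6, r7, r8, r9, r10, r11, r12, r13⟩

/-- Up, in the tour. -/
theorem rel_pUp (h : Hyp K E V l0 r R Ri) (hDr : t0 + D ≤ 2 ^ r) {s : St} {c : Cn}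
    {t z w a b : ℕ} {m : Mode} (hv : Vd E K.n K.H c) (ht : t < D)
    (hR : Rel l0 Λ t0 D av vv s ⟨c, t, m, z, w, a, b⟩) :
    Rel l0 Λ t0 D av vv (den E V (pUp R) s)
      ⟨(K.mv.shift t0).up t c, t + 1, m, z, w, a, b⟩ ∧
      (den E V (pUp R) s).reg 5 = (K.mv.shift t0).idx t c := by
  obtain ⟨r1, r2, r3, r4, r5, r6, r7, r8, r9, r10, r11, r12, r13⟩ := hR
  dsimp only at r1 r2 r3 r4 r5 r6 r7 r8 r9 r10 r11 r12 r13
  obtain ⟨u1, u2, u3, u4⟩ := den_pUp h (s := s) (by rw [r1]; exact hv) (by omega) r10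
  refine ⟨⟨?_, ?_, ?_, ?_, ?_, ?_, ?_, ?_, ?_, ?_, ?_, ?_, ?_⟩, ?_⟩
  · rw [u1, r1, r2]; rfl
  · rw [u3, r2]; exact Nat.add_assoc _ _ _
  · rw [u4 8 (by omega) (by omega) (by omega)]; exact r3
  · rw [u4 9 (by omega) (by omega) (by omega)]; exact r4
  · rw [u4 10 (by omega) (by omega) (by omega)]; exact r5
  · rw [u4 11 (by omega) (by omega) (by omega)]; exact r6
  · rw [u4 12 (by omega) (by omega) (by omega)]; exact r7
  · rw [u4 13 (by omega) (by omega) (by omega)]; exact r8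
  · rw [u4 14 (by omega) (by omega) (by omega)]; exact r9
  · rw [u4 15 (by omega) (by omega) (by omega)]; exact r10
  · rw [u4 16 (by omega) (by omega) (by omega)]; exact r11
  · rw [u4 17 (by omega) (by omega) (by omega)]; exact r12
  · rw [u4 19 (by omega) (by omega) (by omega)]; exact r13
  · rw [u2, r1, r2]; rfl

/-- Back to the root. -/
theorem den_pAbort (h : Hyp K E V l0 r R Ri)
    (hl : LHyp K E V l0 Λ t0 D av vv Zp g g2 fz gA gB G G2 r) {s : St} {σ : TSt Cn}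
    (hI : Mv.Inv (K.mv.shift t0) (fun _ y => Vd E K.n K.H y) (Zx Zp) D Λ G G2 y0 σ)
    (hR : Rel l0 Λ t0 D av vv s σ) (hm : σ.m = .abort) :
    Rel l0 Λ t0 D av vv (den E V (pAbort R) s)
      ((K.mv.shift t0).step (Zx Zp) g g2 D Λ σ) := by
  have hDr := hl.Dr
  have hrB := h.rB
  have hB3 := hl.B3
  have hr0 : 1 ≤ 2 ^ r := Nat.one_le_two_pow
  obtain ⟨c, t, m, z, w, a, b⟩ := σ
  dsimp only at hm
  subst hm
  have hle := hI.le
  have hv := hI.val
  dsimp only at hle hv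
  unfold pAbort
  rw [den_seq, den_sg' (i := 18) (v := if t = D then 1 else 0) ?_ (by split_ifs <;> omega)]
  swap
  · change (if s.reg 7 = s.reg 14 then 1 else 0) = _
    rw [hR.t, hR.k14]
    by_cases h1 : t = D
    · rw [if_pos h1, if_pos (by dsimp only; omega)]
    · rw [if_neg h1, if_neg (by dsimp only; omega)]
  rw [den_ite, set_self]
  simp only [Mv.step]
  have hR' : Rel l0 Λ t0 D av vv (s.set 18 (if t = D then 1 else 0)) ⟨c, t, .abort, z, w, a, b⟩ := by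
    obtain ⟨r1, r2, r3, r4, r5, r6, r7, r8, r9, r10, r11, r12, r13⟩ := hR
    exact ⟨r1, r2, r3, r4, r5, r6, r7, r8, r9, r10, r11, r12, r13⟩
  by_cases i1 : t = D
  · rw [if_pos i1] at hR' ⊢
    rw [if_pos (by omega), if_pos i1, den_sg' (i := 8) (v := 2) rfl (by omega)]
    obtain ⟨r1, r2, r3, r4, r5, r6, r7, r8, r9, r10, r11, r12, r13⟩ := hR'
    exact ⟨r1, r2, rfl, r4, r5, r6, r7, r8, r9, r10, r11, r12, r13⟩
  · rw [if_neg i1] at hR' ⊢
    rw [if_neg (by omega), if_neg i1]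
    exact (rel_pUp h hDr hv (by omega) hR').1

end

end Vale.Agent.P313.H644
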