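import Vale.Agent.P313.H644.Sim2

/-!
The program of the tour simulates the tour.
-/

namespace Vale.Agent.P313.H644

open CT H899

variable {K : Wk} {E : Env} {V : Orc} {l0 r : ℕ} {R Ri : CP} {Λ t0 D av vv : ℕ}
  {Zp : ℕ → Prop} [DecidablePred Zp] {g g2 : Cn → ℕ} {fz gA gB : TS.Fn 20} {G G2 : ℕ}
  {y0 : Cn}

/-- To the next child. -/
theorem rel_next (h : Hyp K E V l0 r R Ri) (hDr : t0 + D ≤ 2 ^ r) {s : St} {y : Cn}
    {t z w a b j : ℕ} (hv : Vd E K.n K.H y) (ht : t < D)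
    (hR : Rel l0 Λ t0 D av vv s ⟨y, t + 1, .leave, z, w, a, b⟩)
    (h5 : s.reg 5 + 1 = j) (hj : j ≤ nc K.n K.F K.H y.x y.z) :
    Rel l0 Λ t0 D av vv (den E V (.seq (sg 5 (fun _ a => a 5 + 1)) (.seq pTest
      (.ite 18 (.seq (pDn Ri) (sg 8 (fun _ _ => 0))) .skip))) s)
      (if j < nc K.n K.F K.H y.x y.z then ⟨(K.mv.shift t0).dn t y j, t, .enter, z, w, a, b⟩
        else ⟨y, t + 1, .leave, z, w, a, b⟩) := by
  have hncB := nc_le_B h hv
  obtain ⟨r1, r2, r3, r4, r5, r6, r7, r8, r9, r10, r11, r12, r13⟩ := hR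
  dsimp only at r1 r2 r3 r4 r5 r6 r7 r8 r9 r10 r11 r12 r13
  rw [den_seq, den_sg' (i := 5) (v := j) h5 (by omega), den_seq]
  have hc2 : cn (s.set 5 j) = y := r1
  have e3 : (s.set 5 j).reg 3 = y.x := congrArg Cn.x hc2
  have e4 : (s.set 5 j).reg 4 = y.z := congrArg Cn.z hc2
  rw [den_pTest h (s := s.set 5 j) (by rw [hc2]; exact hv)
    (by rw [set_ne _ _ (by omega)]; exact r10)
    (by rw [e3, e4, set_self]; exact hj), hc2, e3, e4, set_self, den_ite, set_self]
  by_cases i3 : j < nc K.n K.F K.H y.x y.z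
  · rw [if_pos i3, if_pos i3, if_pos (Nat.succ_ne_zero _), den_seq]
    obtain ⟨d1, d2, d3⟩ := den_pDn h (s := (s.set 5 j).set 18
      (Nat.pair (K.bwd y j).x (K.bwd y j).z + 1)) (y := y) (j := j) (T := t0 + t) hv i3
      (by rw [← hc2]; rfl) (by rw [set_self])
      (by rw [set_ne _ _ (by omega), set_ne _ _ (by omega)]; omega)
      (by omega) (by rw [set_ne _ _ (by omega), set_ne _ _ (by omega)]; exact r10)
    rw [den_sg' (i := 8) (v := 0) rfl (by omega)]
    have d4 : ∀ i, 9 ≤ i → i < 20 → i ≠ 18 → ((den E V (pDn Ri) ((s.set 5 j).set 18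
      (Nat.pair (K.bwd y j).x (K.bwd y j).z + 1))).set 8 0).reg i = s.reg i := by
      intro i i1 i2 i3
      rw [set_ne _ _ (by omega), d3 i (by omega) i2 i3, set_ne _ _ (by omega),
        set_ne _ _ (by omega)]
    exact ⟨d1, d2, set_self _ _ _, (d4 9 (by omega) (by omega) (by omega)).trans r4,
      (d4 10 (by omega) (by omega) (by omega)).trans r5,
      (d4 11 (by omega) (by omega) (by omega)).trans r6,
      (d4 12 (by omega) (by omega) (by omega)).trans r7,
      (d4 13 (by omega) (by omega) (by omega)).trans r8,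
      (d4 14 (by omega) (by omega) (by omega)).trans r9,
      (d4 15 (by omega) (by omega) (by omega)).trans r10,
      (d4 16 (by omega) (by omega) (by omega)).trans r11,
      (d4 17 (by omega) (by omega) (by omega)).trans r12,
      (d4 19 (by omega) (by omega) (by omega)).trans r13⟩
  · rw [if_neg i3, if_neg i3, if_neg (by omega), den_skip]
    exact ⟨r1, r2, r3, r4, r5, r6, r7, r8, r9, r10, r11, r12, r13⟩

/-- A node is left. -/
theorem den_pLeave (h : Hyp K E V l0 r R Ri)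
    (hl : LHyp K E V l0 Λ t0 D av vv Zp g g2 fz gA gB G G2 r) {s : St} {σ : TSt Cn}
    (hI : Mv.Inv (K.mv.shift t0) (fun _ y => Vd E K.n K.H y) (Zx Zp) D Λ G G2 y0 σ)
    (hR : Rel l0 Λ t0 D av vv s σ) (hm : σ.m = .leave) :
    Rel l0 Λ t0 D av vv (den E V (pLeave R Ri fz) s)
      ((K.mv.shift t0).step (Zx Zp) g g2 D Λ σ) := by
  have hLB := hl.LB
  have hD1 := hl.D1
  have hDr := hl.Dr
  have hrB := h.rB
  have hB3 := hl.B3
  obtain ⟨c, t, m, z, w, a, b⟩ := σ
  dsimp only at hm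
  subst hm
  have hv := hI.val
  have hle := hI.le
  have hzle := hI.zle
  dsimp only at hv hle hzle
  obtain ⟨r1, r2, r3, r4, r5, r6, r7, r8, r9, r10, r11, r12, r13⟩ := hR
  dsimp only at r1 r2 r3 r4 r5 r6 r7 r8 r9 r10 r11 r12 r13
  have hvs : Vd E K.n K.H (cn s) := by rw [r1]; exact hv
  unfold pLeave
  rw [den_seq, den_sg' (i := 9) (v := z - Mv.zi (Zx Zp) t c) ?_ (by omega)]
  swap
  · change s.reg 9 - (if s.reg 7 = s.reg 13 then 0 else fz (inp E V s.tp) (fun j => s.reg j)) = _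
    rw [r4]
    congr 1
    simp only [Mv.zi]
    by_cases h1 : t = 0
    · rw [if_pos (by omega), if_neg (by omega)]
    · rw [if_neg (by omega), hl.fzE s hvs r10]
      have e : s.reg 3 = c.x := congrArg Cn.x r1
      rw [e]
      by_cases h2 : Zp c.x
      · rw [if_pos h2, if_pos ⟨h1, h2⟩]
      · rw [if_neg h2, if_neg (fun h3 => h2 h3.2)]
  rw [den_seq, den_sg' (i := 18) (v := if t = D then 1 else 0) ?_ (by split_ifs <;> omega)]
  swap
  · change (if s.reg 7 = s.reg 14 then 1 else 0) = _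
    by_cases h1 : t = D
    · rw [if_pos h1, if_pos (by omega)]
    · rw [if_neg h1, if_neg (by omega)]
  rw [den_ite, set_self]
  simp only [Mv.step]
  have hR' : Rel l0 Λ t0 D av vv ((s.set 9 (z - Mv.zi (Zx Zp) t c)).set 18
      (if t = D then 1 else 0)) ⟨c, t, .leave, z - Mv.zi (Zx Zp) t c, w, a, b⟩ :=
    ⟨r1, r2, r3, rfl, r5, r6, r7, r8, r9, r10, r11, r12, r13⟩
  clear r1 r2 r3 r4 r5 r6 r7 r8 r9 r10 r11 r12 r13
  by_cases i1 : t = D
  · rw [if_pos i1] at hR' ⊢
    rw [if_pos (by omega), if_pos i1, den_sg' (i := 8) (v := 2) rfl (by omega)]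
    obtain ⟨r1, r2, r3, r4, r5, r6, r7, r8, r9, r10, r11, r12, r13⟩ := hR'
    exact ⟨r1, r2, rfl, r4, r5, r6, r7, r8, r9, r10, r11, r12, r13⟩
  rw [if_neg i1] at hR' ⊢
  rw [if_neg (by omega), if_neg i1, den_seq]
  have ht : t < D := by omega
  have hup : Vd E K.n K.H ((K.mv.shift t0).up t c) := (hl.law h).upP t ht c hv
  have hidx : (K.mv.shift t0).idx t c < nc K.n K.F K.H ((K.mv.shift t0).up t c).x
      ((K.mv.shift t0).up t c).z := h.ok.ix_lt_nc (h.ok.mx_v (by omega) hv)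
  have hnc : (K.mv.shift t0).nc t ((K.mv.shift t0).up t c) =
    nc K.n K.F K.H ((K.mv.shift t0).up t c).x ((K.mv.shift t0).up t c).z := rfl
  rw [hnc]
  generalize (s.set 9 (z - Mv.zi (Zx Zp) t c)).set 18 0 = s' at hR'
  obtain ⟨hR2, h5⟩ := rel_pUp h hDr hv ht hR'
  exact rel_next h hDr hup ht hR2 (by rw [h5]) hidx

/-- One step. -/
theorem den_pStep (h : Hyp K E V l0 r R Ri)
    (hl : LHyp K E V l0 Λ t0 D av vv Zp g g2 fz gA gB G G2 r) {s : St} {σ : TSt Cn}
    (hI : Mv.Inv (K.mv.shift t0) (fun _ y => Vd E K.n K.H y) (Zx Zp) D Λ G G2 y0 σ)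
    (hR : Rel l0 Λ t0 D av vv s σ) :
    Rel l0 Λ t0 D av vv (den E V (pStep R Ri fz gA gB) s)
      ((K.mv.shift t0).step (Zx Zp) g g2 D Λ σ) := by
  have hB3 := hl.B3
  have h8 := hR.m
  have hR1 : ∀ v, Rel l0 Λ t0 D av vv (s.set 18 v) σ := by
    intro v
    obtain ⟨r1, r2, r3, r4, r5, r6, r7, r8, r9, r10, r11, r12, r13⟩ := hR
    exact ⟨r1, r2, r3, r4, r5, r6, r7, r8, r9, r10, r11, r12, r13⟩
  unfold pStep
  rw [den_ite]
  rcases hm : σ.m with _ | _ | _ | _
  · rw [hm] at h8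
    rw [if_neg (by rw [h8]; simp [mc])]
    exact den_pEnter h hl hI hR hm
  · rw [hm] at h8
    rw [if_pos (by rw [h8]; simp [mc]), den_seq, den_sg' (i := 18) (v := 1) ?_ (by omega), den_ite,
      set_self, if_pos (by omega)]
    · exact den_pLeave h hl hI (hR1 1) hm
    · change (if s.reg 8 = 1 then 1 else 0) = _
      rw [h8]; rfl
  · rw [hm] at h8
    rw [if_pos (by rw [h8]; simp [mc]), den_seq, den_sg' (i := 18) (v := 0) ?_ (by omega), den_ite,
      set_self, if_neg (by omega), den_seq, den_sg' (i := 18) (v := 0) ?_ (by omega), den_ite,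
      set_self, if_neg (by omega), den_skip]
    · have e : (K.mv.shift t0).step (Zx Zp) g g2 D Λ σ = σ := by simp only [Mv.step, hm]
      rw [e]
      obtain ⟨r1, r2, r3, r4, r5, r6, r7, r8, r9, r10, r11, r12, r13⟩ := hR1 0
      exact ⟨r1, r2, r3, r4, r5, r6, r7, r8, r9, r10, r11, r12, r13⟩
    · change (if s.reg 8 = 3 then 1 else 0) = _
      rw [h8]; rfl
    · change (if s.reg 8 = 1 then 1 else 0) = _
      rw [h8]; rfl
  · rw [hm] at h8
    rw [if_pos (by rw [h8]; simp [mc]), den_seq, den_sg' (i := 18) (v := 0) ?_ (by omega), den_ite,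
      set_self, if_neg (by omega), den_seq, den_sg' (i := 18) (v := 1) ?_ (by omega), den_ite,
      set_self, if_pos (by omega)]
    · have hR2 : Rel l0 Λ t0 D av vv ((s.set 18 0).set 18 1) σ := by
        obtain ⟨r1, r2, r3, r4, r5, r6, r7, r8, r9, r10, r11, r12, r13⟩ := hR1 0
        exact ⟨r1, r2, r3, r4, r5, r6, r7, r8, r9, r10, r11, r12, r13⟩
      exact den_pAbort h hl hI hR2 hm
    · change (if s.reg 8 = 3 then 1 else 0) = _
      rw [h8]; rfl
    · change (if s.reg 8 = 1 then 1 else 0) = _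
      rw [h8]; rfl

/-- Many steps. -/
theorem den_iter (h : Hyp K E V l0 r R Ri)
    (hl : LHyp K E V l0 Λ t0 D av vv Zp g g2 fz gA gB G G2 r) (N : ℕ) {s : St} {σ : TSt Cn}
    (hI : Mv.Inv (K.mv.shift t0) (fun _ y => Vd E K.n K.H y) (Zx Zp) D Λ G G2 y0 σ)
    (hR : Rel l0 Λ t0 D av vv s σ) :
    Rel l0 Λ t0 D av vv ((den E V (pStep R Ri fz gA gB))^[N] s)
      (((K.mv.shift t0).step (Zx Zp) g g2 D Λ)^[N] σ) := by
  induction N generalizing s σ with
  | zero => exact hR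
  | succ N ih =>
    rw [Function.iterate_succ_apply, Function.iterate_succ_apply]
    exact ih (Mv.inv_step (hl.law h) hl.D1 hl.gG hl.gG2 hI) (den_pStep h hl hI hR)

end Vale.Agent.P313.H644
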