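import Vale.Agent.P313.H644.Sim3

/-!
The complete program of a tour: reading the query, checking it, the tour, the result.
-/

namespace Vale.Agent.P313.H644

open CT H899

/-- Clipped power of two. -/
def pw (I : TS.Inp) (a : ℕ) : ℕ := min (2 ^ a) (bnd I + 1)

theorem lf_pw {k : ℕ} {f : TS.Fn k} (hf : TS.LF f) : TS.LF (fun I a => pw I (f I a)) :=
  TS.LF.powMin (TS.LF.const 2) hf lf_bnd

/-- The program: `f15` level of the data, `f16` level of the tree, `f17` target state, `f3`, `f4`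
the token, `f13` first time, `fo` result. -/
noncomputable def tourP (R Ri : CP) (f15 f16 f17 f3 f4 f13 fz gA gB fo : TS.Fn 20) : CP :=
  .seq (sg 15 f15) (.seq (sg 16 f16) (.seq (sg 17 f17) (.seq (sg 3 f3) (.seq (sg 4 f4)
  (.seq (sg 19 (fun I _ => stat I 13))
  (.seq (sg 13 f13)
  (.seq (sg 14 (fun I a => a 13 + pw I (a 16)))
  (.seq (sg 7 (fun _ a => a 14))
  (.seq (sg 18 (fun I a => if a 16 < stat I 3 ∧ a 17 ≤ stat I 0 ∧ a 3 < stat I 0 ∧
    a 4 < Hf I (a 15) (a 3) then 1 else 0))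
  (.ite 18
    (.seq (sg 18 (fun I a => 2 * a 19 + pw I (a 16) + 4))
    (.seq (.loop 18 (pStep R Ri fz gA gB))
    (sg 2 fo)))
   .skip))))))))))

theorem tourP_ok {R Ri : CP} {f15 f16 f17 f3 f4 f13 fz gA gB fo : TS.Fn 20} (hR : R.Ok)
    (hRi : Ri.Ok) (h15 : TS.LF f15) (h16 : TS.LF f16) (h17 : TS.LF f17) (h3 : TS.LF f3)
    (h4 : TS.LF f4) (h13 : TS.LF f13) (hz : TS.LF fz) (hA : TS.LF gA) (hB : TS.LF gB)
    (ho : TS.LF fo) : (tourP R Ri f15 f16 f17 f3 f4 f13 fz gA gB fo).Ok := by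
  refine ⟨h15, h16, h17, h3, h4, lf_stat (TS.LF.const 13), h13,
    (TS.LF.proj 13).add (lf_pw (TS.LF.proj 16)), TS.LF.proj 14,
    TS.LF.ite (TS.LFP.and (TS.LFP.lt (TS.LF.proj 16) (lf_stat (TS.LF.const 3)))
      (TS.LFP.and (TS.LFP.le (TS.LF.proj 17) (lf_stat (TS.LF.const 0)))
      (TS.LFP.and (TS.LFP.lt (TS.LF.proj 3) (lf_stat (TS.LF.const 0)))
      (TS.LFP.lt (TS.LF.proj 4) (lf_Hf (TS.LF.proj 15) (TS.LF.proj 3)))))) (TS.LF.const 1)
      (TS.LF.const 0),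
    ⟨(((TS.LF.const 2).mul (TS.LF.proj 19)).add (lf_pw (TS.LF.proj 16))).add (TS.LF.const 4),
      pStep_ok hR hRi hz hA hB, ho⟩, trivial⟩

/-- Reading the query gives the numbers `l0, a, v, x, z`, the first time is `t0`. -/
structure Init (E : Env) (V : Orc) (l q : ℕ) (f15 f16 f17 f3 f4 f13 : TS.Fn 20)
    (l0 a v x z t0 : ℕ) : Prop where
  i15 : ∀ s : St, s.reg 0 = l → s.reg 1 = q → min (f15 (inp E V s.tp) (fun j => s.reg j)) E.B = l0
  i16 : ∀ s : St, s.reg 0 = l → s.reg 1 = q → min (f16 (inp E V s.tp) (fun j => s.reg j)) E.B = a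
  i17 : ∀ s : St, s.reg 0 = l → s.reg 1 = q → min (f17 (inp E V s.tp) (fun j => s.reg j)) E.B = v
  i3 : ∀ s : St, s.reg 0 = l → s.reg 1 = q → min (f3 (inp E V s.tp) (fun j => s.reg j)) E.B = x
  i4 : ∀ s : St, s.reg 0 = l → s.reg 1 = q → min (f4 (inp E V s.tp) (fun j => s.reg j)) E.B = z
  i13 : ∀ s : St, s.reg 16 = a → min (f13 (inp E V s.tp) (fun j => s.reg j)) E.B = t0

section

variable {K : Wk} {E : Env} {V : Orc} {l0 r : ℕ} {R Ri : CP} {Λ t0 a v x z : ℕ}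
  {Zp : ℕ → Prop} [DecidablePred Zp] {g g2 : Cn → ℕ}
  {f15 f16 f17 f3 f4 f13 fz gA gB fo : TS.Fn 20} {G G2 l q : ℕ}

theorem den_init (hi : Init E V l q f15 f16 f17 f3 f4 f13 l0 a v x z t0)
    (hΛ : min (E.st 13) E.B = Λ) (t : CT.Tape) :
    ∃ s : St, den E V (tourP R Ri f15 f16 f17 f3 f4 f13 fz gA gB fo) ⟨start l q, t⟩ =
      den E V (.seq (sg 14 (fun I a => a 13 + pw I (a 16)))
        (.seq (sg 7 (fun _ a => a 14))
        (.seq (sg 18 (fun I a => if a 16 < stat I 3 ∧ a 17 ≤ stat I 0 ∧ a 3 < stat I 0 ∧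
          a 4 < Hf I (a 15) (a 3) then 1 else 0))
        (.ite 18
          (.seq (sg 18 (fun I a => 2 * a 19 + pw I (a 16) + 4))
          (.seq (.loop 18 (pStep R Ri fz gA gB))
          (sg 2 fo)))
         .skip)))) s ∧ s.tp = t ∧ s.reg 15 = l0 ∧ s.reg 16 = a ∧ s.reg 17 = v ∧ s.reg 3 = x ∧
      s.reg 4 = z ∧ s.reg 19 = Λ ∧ s.reg 13 = t0 ∧ ∀ i, 8 ≤ i → i < 13 → s.reg i = 0 := by
  refine ⟨_, rfl, ?_⟩
  set s0 : St := ⟨start l q, t⟩ with hs0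
  have e1 := hi.i15 s0 rfl rfl
  rw [den_sg (E := E) (V := V) 15 f15 s0, e1]
  have e2 := hi.i16 (s0.set 15 l0) rfl rfl
  rw [den_sg (E := E) (V := V) 16 f16, e2]
  have e3 := hi.i17 ((s0.set 15 l0).set 16 a) rfl rfl
  rw [den_sg (E := E) (V := V) 17 f17, e3]
  have e4 := hi.i3 (((s0.set 15 l0).set 16 a).set 17 v) rfl rfl
  rw [den_sg (E := E) (V := V) 3 f3, e4]
  have e5 := hi.i4 ((((s0.set 15 l0).set 16 a).set 17 v).set 3 x) rfl rfl
  rw [den_sg (E := E) (V := V) 4 f4, e5]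
  rw [den_sg (E := E) (V := V) 19 (fun I _ => stat I 13)]
  rw [show min (stat (inp E V (((((s0.set 15 l0).set 16 a).set 17 v).set 3 x).set 4 z).tp) 13) E.B
    = Λ by rw [stat_inp, min_eq_left (min_le_right _ _), hΛ]]
  have e6 := hi.i13 ((((((s0.set 15 l0).set 16 a).set 17 v).set 3 x).set 4 z).set 19 Λ) rfl
  rw [den_sg (E := E) (V := V) 13 f13, e6]
  refine ⟨rfl, rfl, rfl, rfl, rfl, rfl, rfl, rfl, ?_⟩
  intro i h1 h2
  rw [set_ne _ _ (by omega), set_ne _ _ (by omega), set_ne _ _ (by omega),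
    set_ne _ _ (by omega), set_ne _ _ (by omega), set_ne _ _ (by omega), set_ne _ _ (by omega)]
  simp only [hs0, start]
  rw [if_neg (by omega), if_neg (by omega)]

/-- The static digits which are used. -/
structure StOk (E : Env) (n r Λ : ℕ) : Prop where
  s0 : min (E.st 0) E.B = n
  s3 : min (E.st 3) E.B = r
  s13 : min (E.st 13) E.B = Λ

theorem stat_of {j m : ℕ} {t : CT.Tape} (h : min (E.st j) E.B = m) : stat (inp E V t) j = m := by
  rw [stat_inp, h]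

/-- Queries which are not valid. -/
theorem den_tourP_invalid (hi : Init E V l q f15 f16 f17 f3 f4 f13 l0 a v x z t0)
    (hst : StOk E K.n r Λ) {t : CT.Tape}
    (hH : x < K.n → Hf (inp E V t) l0 x = K.H x)
    (hv : ¬ (a < r ∧ v ≤ K.n ∧ x < K.n ∧ z < K.H x)) :
    (den E V (tourP R Ri f15 f16 f17 f3 f4 f13 fz gA gB fo) ⟨start l q, t⟩).tp = t := by
  obtain ⟨s, hs, h0, h15, h16, h17, h3, h4, h19, h13, -⟩ :=
    den_init (R := R) (Ri := Ri) (fz := fz) (gA := gA) (gB := gB) (fo := fo) hi hst.s13 t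
  rw [hs, den_seq, den_seq, den_seq, den_sg (E := E) (V := V) 14, den_sg (E := E) (V := V) 7,
    den_sg' (i := 18) (v := 0) ?_ (Nat.zero_le _), den_ite, set_self, if_neg (by simp), den_skip]
  · exact h0
  · change (if s.reg 16 < stat (inp E V s.tp) 3 ∧ s.reg 17 ≤ stat (inp E V s.tp) 0 ∧
      s.reg 3 < stat (inp E V s.tp) 0 ∧
      s.reg 4 < Hf (inp E V s.tp) (s.reg 15) (s.reg 3) then 1 else 0) = 0
    rw [h0, h15, h16, h17, h3, h4, stat_of hst.s0, stat_of hst.s3, if_neg]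
    rintro ⟨h1, h2, h5, h6⟩
    rw [hH h5] at h6
    exact hv ⟨h1, h2, h5, h6⟩

/-- THE TOUR AS A PROGRAM. -/
theorem den_tourP (h : Hyp K E V l0 r R Ri)
    (hl : LHyp K E V l0 Λ t0 (2 ^ a) a v Zp g g2 fz gA gB G G2 r)
    (hi : Init E V l q f15 f16 f17 f3 f4 f13 l0 a v x z t0)
    (hst : StOk E K.n r Λ) {t : CT.Tape} (hN : 2 * Λ + 2 ^ a + 4 ≤ E.B) (hΛ : 1 ≤ Λ)
    (ha : a < r) (hv : v ≤ K.n) (hy : Vd E K.n K.H ⟨x, z, t⟩) {O : ℕ → ℕ → ℕ → ℕ → ℕ}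
    (hfo : ∀ s : St, fo (inp E V s.tp) (fun j => s.reg j) =
      O (s.reg 10) (s.reg 11) (s.reg 12) (s.reg 19)) :
    (den E V (tourP R Ri f15 f16 f17 f3 f4 f13 fz gA gB fo) ⟨start l q, t⟩).tp = t ∧
    ((K.mv.shift t0).W (2 ^ a) ⟨x, z, t⟩ < Λ →
      (den E V (tourP R Ri f15 f16 f17 f3 f4 f13 fz gA gB fo) ⟨start l q, t⟩).reg 2 =
        min (O ((K.mv.shift t0).W (2 ^ a) ⟨x, z, t⟩)
          ((K.mv.shift t0).sm (Zx Zp) g (2 ^ a) ⟨x, z, t⟩)
          ((K.mv.shift t0).sl g2 (2 ^ a) ⟨x, z, t⟩) Λ) E.B) ∧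
    (Λ ≤ (K.mv.shift t0).W (2 ^ a) ⟨x, z, t⟩ → ∃ w A B, Λ ≤ w ∧
      (den E V (tourP R Ri f15 f16 f17 f3 f4 f13 fz gA gB fo) ⟨start l q, t⟩).reg 2 =
        min (O w A B Λ) E.B) := by
  have hrB := h.rB
  have hDr := hl.Dr
  have hB3 := hl.B3
  obtain ⟨s, hs, h0, h15, h16, h17, h3, h4, h19, h13, hz⟩ :=
    den_init (R := R) (Ri := Ri) (fz := fz) (gA := gA) (gB := gB) (fo := fo) hi hst.s13 t
  have hpw : ∀ t', pw (inp E V t') a = 2 ^ a := by
    intro t'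
    unfold pw
    rw [bnd_inp]
    exact min_eq_left (by omega)
  -- the start of the tour
  set D := 2 ^ a with hD
  have e1 : den E V (sg 14 (fun I a => a 13 + pw I (a 16))) s = s.set 14 (t0 + D) := by
    refine den_sg' ?_ (by omega)
    change s.reg 13 + pw (inp E V s.tp) (s.reg 16) = _
    rw [h13, h16, hpw]
  have e2 : den E V (sg 7 (fun _ a => a 14)) (s.set 14 (t0 + D)) =
      (s.set 14 (t0 + D)).set 7 (t0 + D) := den_sg' rfl (by omega)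
  have e3 : den E V (sg 18 (fun I a => if a 16 < stat I 3 ∧ a 17 ≤ stat I 0 ∧ a 3 < stat I 0 ∧
      a 4 < Hf I (a 15) (a 3) then 1 else 0)) ((s.set 14 (t0 + D)).set 7 (t0 + D)) =
      ((s.set 14 (t0 + D)).set 7 (t0 + D)).set 18 1 := by
    refine den_sg' ?_ (by omega)
    change (if s.reg 16 < stat (inp E V s.tp) 3 ∧ s.reg 17 ≤ stat (inp E V s.tp) 0 ∧
      s.reg 3 < stat (inp E V s.tp) 0 ∧
      s.reg 4 < Hf (inp E V s.tp) (s.reg 15) (s.reg 3) then 1 else 0) = 1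
    rw [h0, h15, h16, h17, h3, h4, stat_of hst.s0, stat_of hst.s3,
      h.Hf t hy.2.2 x hy.1, if_pos ⟨ha, hv, hy.1, hy.2.1⟩]
  have e4 : den E V (sg 18 (fun I a => 2 * a 19 + pw I (a 16) + 4))
      (((s.set 14 (t0 + D)).set 7 (t0 + D)).set 18 1) =
      ((((s.set 14 (t0 + D)).set 7 (t0 + D)).set 18 1).set 18 (2 * Λ + D + 4)) := by
    refine den_sg' ?_ (by omega)
    change 2 * s.reg 19 + pw (inp E V s.tp) (s.reg 16) + 4 = _
    rw [h19, h16, hpw]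
  have hR : Rel l0 Λ t0 D a v ((((s.set 14 (t0 + D)).set 7 (t0 + D)).set 18 1).set 18
      (2 * Λ + D + 4)) ⟨⟨x, z, t⟩, D, .enter, 0, 0, 0, 0⟩ := by
    refine ⟨?_, rfl, hz 8 (by omega) (by omega), hz 9 (by omega) (by omega),
      hz 10 (by omega) (by omega), hz 11 (by omega) (by omega), hz 12 (by omega) (by omega),
      h13, rfl, h15, h16, h17, h19⟩
    ext1
    · exact h3
    · exact h4
    · exact h0
  have hI := Mv.inv_start (M := K.mv.shift t0) (Z := Zx Zp) (P := fun _ y => Vd E K.n K.H y)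
    (D := D) (Λ := Λ) (y := (⟨x, z, t⟩ : Cn)) hy hΛ G G2
  have hR2 := den_iter h hl (2 * Λ + D + 4) hI hR
  obtain ⟨c1, c2, c3, c4, c5⟩ := Mv.tour (Z := Zx Zp) (g := g) (g2 := g2) (Λ := Λ) (hl.law h)
    hl.D1 hΛ (y := (⟨x, z, t⟩ : Cn)) hy (N := 2 * Λ + D + 4) le_rfl rfl
  have key : den E V (tourP R Ri f15 f16 f17 f3 f4 f13 fz gA gB fo) ⟨start l q, t⟩ =
      den E V (sg 2 fo) ((den E V (pStep R Ri fz gA gB))^[2 * Λ + D + 4]
        ((((s.set 14 (t0 + D)).set 7 (t0 + D)).set 18 1).set 18 (2 * Λ + D + 4))) := by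
    rw [hs, den_seq, den_seq, den_seq, e1, e2, e3, den_ite, set_self, if_pos (by omega), den_seq,
      e4, den_seq, den_loop, set_self]
  rw [key]
  generalize (den E V (pStep R Ri fz gA gB))^[2 * Λ + D + 4]
    ((((s.set 14 (t0 + D)).set 7 (t0 + D)).set 18 1).set 18 (2 * Λ + D + 4)) = s' at hR2
  generalize ((K.mv.shift t0).step (Zx Zp) g g2 D Λ)^[2 * Λ + D + 4]
    ⟨⟨x, z, t⟩, D, .enter, 0, 0, 0, 0⟩ = σ at hR2 c1 c2 c3 c4 c5
  have e5 : (den E V (sg 2 fo) s').reg 2 = min (O σ.w σ.a σ.b Λ) E.B := by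
    rw [den_sg, set_self, hfo, hR2.w, hR2.a, hR2.b, hR2.k19]
  have e6 : (den E V (sg 2 fo) s').tp = t := by
    have : (cn s').tp = t := by rw [hR2.c, c1]
    exact this
  refine ⟨e6, fun hW => ?_, fun hW => ?_⟩
  · obtain ⟨d1, d2, d3⟩ := c4 hW
    rw [e5, d1, d2, d3]
  · exact ⟨_, _, _, c5 hW, e5⟩

end

end Vale.Agent.P313.H644
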