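import Vale.Agent.P313.MathlibUsed

/-!
Backward trees of a walk and their depth-first tour in place.
-/

namespace Vale.Agent.P313.H644

open Finset

/-- Moves of a node: `up t` leads from time `t` to time `t + 1`, `idx t` is the number of a node at
time `t` among the children of its parent, `nc t` the number of children (at time `t`) of a node at
time `t + 1`, `dn t y j` the child number `j` of `y`. -/
structure Mv (α : Type*) where
  up : ℕ → α → α
  idx : ℕ → α → ℕ
  nc : ℕ → α → ℕ
  dn : ℕ → α → ℕ → α

/-- Modes of the tour. -/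
inductive Mode where
  | enter | leave | halt | abort
  deriving DecidableEq

/-- States of the tour: node, time, mode, number of ancestors in `Z`, number of nodes entered,
two accumulators. -/
@[ext] structure TSt (α : Type*) where
  c : α
  t : ℕ
  m : Mode
  z : ℕ
  w : ℕ
  a : ℕ
  b : ℕ

namespace Mv

variable {α : Type*} (M : Mv α)

/-- The laws, for the valid nodes `P t` at time `t ≤ D`. -/
structure Law (P : ℕ → α → Prop) (D : ℕ) : Prop where
  upP : ∀ t < D, ∀ y, P t y → P (t + 1) (M.up t y)
  dnP : ∀ t < D, ∀ y, P (t + 1) y → ∀ j < M.nc t y, P t (M.dn t y j)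
  updn : ∀ t < D, ∀ y, P (t + 1) y → ∀ j < M.nc t y, M.up t (M.dn t y j) = y
  idxdn : ∀ t < D, ∀ y, P (t + 1) y → ∀ j < M.nc t y, M.idx t (M.dn t y j) = j

/-- Going up `k` times from time `t`. -/
def ups (t : ℕ) : ℕ → α → α
  | 0, y => y
  | k + 1, y => ups (t + 1) k (M.up t y)

/-- The number of nodes of the tree below a node, with the node. -/
def wn : ℕ → α → ℕ
  | 0, _ => 1
  | t + 1, y => 1 + ∑ j ∈ range (M.nc t y), wn t (M.dn t y j)

/-- The number of nodes below a node at time `t`, without the node. -/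
def W : ℕ → α → ℕ
  | 0, _ => 0
  | t + 1, y => ∑ j ∈ range (M.nc t y), M.wn t (M.dn t y j)

theorem wn_eq (t : ℕ) (y : α) : M.wn t y = 1 + M.W t y := by
  cases t <;> simp only [wn, W]

theorem wn_pos (t : ℕ) (y : α) : 1 ≤ M.wn t y := by rw [wn_eq]; omega

/-- Weight of a node at time `t` when it is entered. -/
def ew (D t : ℕ) : ℕ := if t = D then 0 else 1

/-- The sum of `g` over all leaves. -/
def sl (g : α → ℕ) : ℕ → α → ℕ
  | 0, y => g y
  | t + 1, y => ∑ j ∈ range (M.nc t y), sl g t (M.dn t y j)

variable (Z : ℕ → α → Prop) [∀ t y, Decidable (Z t y)] (g g2 : α → ℕ) (D Λ : ℕ)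

/-- The sum of `g` over the leaves (at time `0`) below a node at time `t` whose path to the node
avoids `Z` at the times `1, ..., t`. -/
def sm : ℕ → α → ℕ
  | 0, y => g y
  | t + 1, y => if Z (t + 1) y then 0 else ∑ j ∈ range (M.nc t y), sm t (M.dn t y j)

/-- One when the node is in `Z` and not a leaf. -/
def zi (t : ℕ) (y : α) : ℕ := if t ≠ 0 ∧ Z t y then 1 else 0

/-- The number of ancestors in `Z` up to `k` generations above time `t`. -/
def za (t : ℕ) : ℕ → α → ℕ
  | 0, _ => 0
  | k + 1, y => zi Z (t + 1) (M.up t y) + za (t + 1) k (M.up t y)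

/-- One step of the tour. -/
def step (s : TSt α) : TSt α :=
  match s.m with
  | .enter =>
    if Λ ≤ s.w + ew D s.t then ⟨s.c, s.t, .abort, s.z, s.w + ew D s.t, s.a, s.b⟩
    else if s.t = 0 then
      ⟨s.c, s.t, .leave, s.z, s.w + ew D s.t, s.a + if s.z = 0 then g s.c else 0, s.b + g2 s.c⟩
    else if 0 < M.nc (s.t - 1) s.c then
      ⟨M.dn (s.t - 1) s.c 0, s.t - 1, .enter, s.z + zi Z s.t s.c, s.w + ew D s.t, s.a, s.b⟩
    else ⟨s.c, s.t, .leave, s.z + zi Z s.t s.c, s.w + ew D s.t, s.a, s.b⟩
  | .leave =>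
    if s.t = D then ⟨s.c, s.t, .halt, s.z - zi Z s.t s.c, s.w, s.a, s.b⟩
    else if M.idx s.t s.c + 1 < M.nc s.t (M.up s.t s.c) then
      ⟨M.dn s.t (M.up s.t s.c) (M.idx s.t s.c + 1), s.t, .enter, s.z - zi Z s.t s.c, s.w, s.a, s.b⟩
    else ⟨M.up s.t s.c, s.t + 1, .leave, s.z - zi Z s.t s.c, s.w, s.a, s.b⟩
  | .halt => s
  | .abort =>
    if s.t = D then ⟨s.c, s.t, .halt, s.z, s.w, s.a, s.b⟩
    else ⟨M.up s.t s.c, s.t + 1, .abort, s.z, s.w, s.a, s.b⟩

variable {Z g g2 D Λ} {M}

/-- The invariant of the tour with root `y0`. -/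
structure Inv (M : Mv α) (P : ℕ → α → Prop) (Z : ℕ → α → Prop) [∀ t y, Decidable (Z t y)]
    (D Λ G G2 : ℕ) (y0 : α) (s : TSt α) : Prop where
  val : P s.t s.c
  le : s.t ≤ D
  ups : M.ups s.t (D - s.t) s.c = y0
  z : s.m ≠ .abort → s.m ≠ .halt →
    s.z = (if s.m = .leave then zi Z s.t s.c else 0) + M.za Z s.t (D - s.t) s.c
  zle : s.z ≤ D + 1
  w : s.w ≤ Λ
  wl : s.m ≠ .abort → s.m ≠ .halt → s.w < Λ
  a : s.a ≤ G * s.w
  b : s.b ≤ G2 * s.w

theorem zi_le (t : ℕ) (y : α) : zi Z t y ≤ 1 := by unfold zi; split_ifs <;> omega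

theorem za_le (t : ℕ) : ∀ k y, M.za Z t k y ≤ k := by
  intro k
  induction k generalizing t with
  | zero => intro y; simp [za]
  | succ k ih =>
    intro y
    have h1 := zi_le (Z := Z) (t + 1) (M.up t y)
    have h2 := ih (t + 1) (M.up t y)
    simp only [za]
    omega

theorem inv_step {P : ℕ → α → Prop} (L : M.Law P D) (hD : 1 ≤ D) {G G2 : ℕ}
    (hG : ∀ y, P 0 y → g y ≤ G) (hG2 : ∀ y, P 0 y → g2 y ≤ G2)
    {y0 : α} {s : TSt α} (h : Inv M P Z D Λ G G2 y0 s) :
    Inv M P Z D Λ G G2 y0 (M.step Z g g2 D Λ s) := by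
  obtain ⟨c, t, m, z, w, a, b⟩ := s
  obtain ⟨h1, h2, h3, h4, h5, h6, h7, h8, h9⟩ := h
  dsimp only at h1 h2 h3 h4 h5 h6 h7 h8 h9
  cases m with
  | enter =>
    have h4' : z = M.za Z t (D - t) c := by simpa using h4 (by simp) (by simp)
    have h7' : w < Λ := h7 (by simp) (by simp)
    have hz : z ≤ D - t := by rw [h4']; exact za_le _ _ _
    have he : ew D t ≤ 1 := by unfold ew; split_ifs <;> omega
    have haw : a ≤ G * (w + ew D t) := h8.trans (Nat.mul_le_mul_left _ (by omega))
    have hbw : b ≤ G2 * (w + ew D t) := h9.trans (Nat.mul_le_mul_left _ (by omega))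
    have hab : t = 0 → b + g2 c ≤ G2 * (w + ew D t) := by
      rintro rfl
      have he1 : ew D 0 = 1 := by simp only [ew]; split_ifs <;> omega
      have h10 : G2 * (w + 1) = G2 * w + G2 := by ring
      have := hG2 c h1
      rw [he1]; omega
    simp only [step]
    split_ifs with i1 i2 i3 i4
    · exact ⟨h1, h2, h3, by simp, by simp only; omega, by simp only; omega, by simp, haw, hbw⟩
    · have := hab i2
      subst i2
      have he1 : ew D 0 = 1 := by simp only [ew]; split_ifs <;> omega
      refine ⟨h1, h2, h3, ?_, by simp only; omega, by simp only; omega, by simp only; omega, ?_,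
        this⟩
      · intro _ _
        have : zi Z 0 c = 0 := by simp [zi]
        simp only [this]; simpa using h4'
      · have := hG c h1
        simp only [he1] at haw ⊢
        have h9 : G * (w + 1) = G * w + G := by ring
        omega
    · have := hab i2
      subst i2
      have he1 : ew D 0 = 1 := by simp only [ew]; split_ifs <;> omega
      refine ⟨h1, h2, h3, ?_, by simp only; omega, by simp only; omega, by simp only; omega, ?_,
        this⟩
      · intro _ _
        have : zi Z 0 c = 0 := by simp [zi]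
        simp only [this]; simpa using h4'
      · simpa using haw
    · obtain ⟨t, rfl⟩ : ∃ t', t = t' + 1 := ⟨t - 1, by omega⟩
      simp only [Nat.add_sub_cancel] at i4 ⊢
      have ht : t < D := by omega
      have e1 := L.updn t ht c h1 0 i4
      have e3 : D - t = (D - (t + 1)) + 1 := by omega
      have hzi := zi_le (Z := Z) (t + 1) c
      refine ⟨L.dnP t ht c h1 0 i4, by simp only; omega, ?_, ?_, by simp only; omega,
        by simp only; omega, by simp only; omega, haw, hbw⟩
      · simp only [e3, Mv.ups, e1]; exact h3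
      · intro _ _
        simp only [e3, za, e1]
        rw [if_neg (by simp), h4']; omega
    · have hzi := zi_le (Z := Z) t c
      refine ⟨h1, h2, h3, ?_, by simp only; omega, by simp only; omega, by simp only; omega, haw,
        hbw⟩
      intro _ _
      simp only [if_true]
      rw [h4']; omega
  | leave =>
    have h4' : z = zi Z t c + M.za Z t (D - t) c := by simpa using h4 (by simp) (by simp)
    have h7' : w < Λ := h7 (by simp) (by simp)
    have hz : M.za Z t (D - t) c ≤ D - t := za_le _ _ _
    simp only [step]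
    split_ifs with i1 i2
    · exact ⟨h1, h2, h3, by simp, by simp only; omega, h6, by simp, h8, h9⟩
    · have ht : t < D := by omega
      have e0 := L.upP t ht c h1
      have e1 := L.updn t ht _ e0 _ i2
      have e3 : D - t = (D - (t + 1)) + 1 := by omega
      refine ⟨L.dnP t ht _ e0 _ i2, h2, ?_, ?_, by simp only; omega, h6, fun _ _ => h7', h8, h9⟩
      · simp only [e3, Mv.ups, e1] at h3 ⊢; exact h3
      · intro _ _
        simp only [e3, za, e1] at h4' ⊢
        rw [if_neg (by simp), h4']; omega
    · have ht : t < D := by omega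
      have e0 := L.upP t ht c h1
      have e3 : D - t = (D - (t + 1)) + 1 := by omega
      refine ⟨e0, by simp only; omega, ?_, ?_, by simp only; omega, h6, fun _ _ => h7', h8, h9⟩
      · simp only [e3, Mv.ups] at h3 ⊢; exact h3
      · intro _ _
        simp only [e3, za] at h4'
        simp only [if_true]
        omega
  | halt => exact ⟨h1, h2, h3, h4, h5, h6, h7, h8, h9⟩
  | abort =>
    simp only [step]
    split_ifs with i1
    · exact ⟨h1, h2, h3, by simp, h5, h6, by simp, h8, h9⟩
    · have ht : t < D := by omega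
      have e3 : D - t = (D - (t + 1)) + 1 := by omega
      refine ⟨L.upP t ht c h1, by simp only; omega, ?_, by simp, h5, h6, by simp, h8, h9⟩
      simp only [e3, Mv.ups] at h3 ⊢; exact h3

end Mv

end Vale.Agent.P313.H644
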