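import Vale.Agent.P313.CT.Lib

/-!
The exponent of `2` in a number, and clipped powers, as functions in `TS.LF`.
-/

namespace Vale.Agent.P313.H644

open CT

theorem leastBelow_congr {p p' : ℕ → Prop} {n : ℕ} (h : ∀ j < n, p j ↔ p' j) :
    leastBelow p n = leastBelow p' n := by
  unfold leastBelow
  refine Finset.sum_congr rfl fun i hi => ?_
  congr 1
  rw [Finset.mem_range] at hi
  exact propext ⟨fun h1 j hj h2 => h1 j hj ((h j (by omega)).2 h2),
    fun h1 j hj h2 => h1 j hj ((h j (by omega)).1 h2)⟩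

/-- The exponent of `2` in `T`. -/
noncomputable def v2 (T : ℕ) : ℕ := leastBelow (fun a => T / 2 ^ a % 2 = 1) (T + 1)

theorem v2_eq {T a m : ℕ} (h : T = 2 ^ a * (2 * m + 1)) : v2 T = a := by
  have ha : a < 2 ^ a := Nat.lt_two_pow_self
  refine leastBelow_eq ?_ ?_ ?_
  · have : 2 ^ a * 1 ≤ 2 ^ a * (2 * m + 1) := Nat.mul_le_mul_left _ (by omega)
    omega
  · rw [h, Nat.mul_div_cancel_left _ (by positivity)]
    omega
  · intro j hj
    obtain ⟨k, rfl⟩ : ∃ k, a = j + (k + 1) := ⟨a - j - 1, by omega⟩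
    have e : T = 2 ^ j * (2 * (2 ^ k * (2 * m + 1))) := by rw [h]; ring
    rw [e, Nat.mul_div_cancel_left _ (by positivity)]
    omega

theorem exists_v2 {T : ℕ} (h : T ≠ 0) : ∃ a m, T = 2 ^ a * (2 * m + 1) := by
  obtain ⟨a, m, hm, e⟩ := Nat.exists_eq_two_pow_mul_odd h
  obtain ⟨m', rfl⟩ := hm
  exact ⟨a, m', e⟩

theorem v2_lt {T r : ℕ} (h : T ≠ 0) (hr : T < 2 ^ r) : v2 T < r := by
  obtain ⟨a, m, e⟩ := exists_v2 h
  rw [v2_eq e]
  have h1 : 2 ^ a ≤ T := by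
    rw [e]; exact Nat.le_mul_of_pos_right _ (by omega)
  exact (Nat.pow_lt_pow_iff_right (by omega)).1 (lt_of_le_of_lt h1 hr)

theorem v2_pow (a : ℕ) : v2 (2 ^ a) = a := v2_eq (m := 0) (by ring)

theorem v2_add {a t : ℕ} (h : t ≠ 0) (ht : t < 2 ^ a) : v2 (2 ^ a + t) = v2 t := by
  obtain ⟨b, m, e⟩ := exists_v2 h
  have h1 : 2 ^ b ≤ t := by
    rw [e]; exact Nat.le_mul_of_pos_right _ (by omega)
  have h2 : b < a := (Nat.pow_lt_pow_iff_right (by omega)).1 (lt_of_le_of_lt h1 ht)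
  obtain ⟨k, rfl⟩ : ∃ k, a = b + (k + 1) := ⟨a - b - 1, by omega⟩
  rw [v2_eq e]
  refine v2_eq (m := 2 ^ k + m) ?_
  rw [e]; ring

section lf

variable {k : ℕ}

theorem lf_v2 {f : TS.Fn k} (hf : TS.LF f) : TS.LF (fun I a => v2 (f I a)) := by
  have h1 := TS.LF.least (k := k) (P := fun I b => f I (Fin.tail b) / 2 ^ b 0 % 2 = 1)
    (n := fun I a => f I a + 1)
    (TS.LFP.eq (TS.LF.mod (TS.LF.divPow (TS.LF.const 2) hf.weak (TS.LF.proj 0)) (TS.LF.const 2))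
      (TS.LF.const 1)) hf.succ
  refine h1.congr (fun I a => ?_)
  simp only [Fin.tail_cons, Fin.cons_zero]
  rfl

/-- The clipped number of tokens of a state: `q ^ (c x)` for `q` = static digit `1`, `c x` from the
data at level `l0`. -/
def Hf (I : TS.Inp) (l0 x : ℕ) : ℕ :=
  min (stat I 1 ^ ask I l0 (Nat.pair 1 (Nat.pair x 0))) (bnd I + 1)

theorem lf_Hf {f g : TS.Fn k} (hf : TS.LF f) (hg : TS.LF g) :
    TS.LF (fun I a => Hf I (f I a) (g I a)) :=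
  TS.LF.powMin (lf_stat (TS.LF.const 1))
    (lf_ask hf (lf_pair (TS.LF.const 1) (lf_pair hg (TS.LF.const 0)))) lf_bnd

/-- Forward hop. -/
def hfw (I : TS.Inp) (l0 x z : ℕ) : ℕ := ask I (l0 + 1) (Nat.pair 0 (Nat.pair x z))

/-- Backward hop. -/
def hbw (I : TS.Inp) (l0 x ρ : ℕ) : ℕ := ask I (l0 + 1) (Nat.pair 1 (Nat.pair x ρ))

theorem lf_hfw {f g h : TS.Fn k} (hf : TS.LF f) (hg : TS.LF g) (hh : TS.LF h) :
    TS.LF (fun I a => hfw I (f I a) (g I a) (h I a)) :=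
  lf_ask hf.succ (lf_pair (TS.LF.const 0) (lf_pair hg hh))

theorem lf_hbw {f g h : TS.Fn k} (hf : TS.LF f) (hg : TS.LF g) (hh : TS.LF h) :
    TS.LF (fun I a => hbw I (f I a) (g I a) (h I a)) :=
  lf_ask hf.succ (lf_pair (TS.LF.const 1) (lf_pair hg hh))

end lf

end Vale.Agent.P313.H644
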